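import Crest.Agent.Borsuk.Words

set_option autoImplicit false

namespace Crest.Agent.Borsuk

open Finset

abbrev Lb := Fin 3 × Fin 10

def blk (b : Bool) : Fin 3 := if b then 0 else 1

def sw : Fin 3 → Fin 3 := fun k => if k = 0 then 1 else if k = 1 then 0 else 2

def sg (x : Lb) : Lb := (sw x.1, x.2)

theorem sg_sg (x : Lb) : sg (sg x) = x := by revert x; decide

theorem sg_inj : Function.Injective sg := fun x y h => by rw [← sg_sg x, h, sg_sg]

theorem mem_image_sg (T : Finset Lb) (x : Lb) : x ∈ T.image sg ↔ sg x ∈ T := by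
  constructor
  · intro h
    obtain ⟨y, hy, rfl⟩ := Finset.mem_image.1 h
    rwa [sg_sg]
  · intro h
    exact Finset.mem_image.2 ⟨_, h, sg_sg x⟩

theorem image_sg_sg (T : Finset Lb) : (T.image sg).image sg = T := by
  ext x; rw [mem_image_sg, mem_image_sg, sg_sg]

def alt (T : Finset Lb) : Bool → List (Fin 10) → Z2
  | _, [] => 1
  | b, i :: l => if (blk b, i) ∈ T then alt T (!b) l else
      if (blk (!b), i) ∈ T then 0 else alt T b l

theorem alt_congr {T T' : Finset Lb} (l : List (Fin 10))
    (h : ∀ b, ∀ i ∈ l, ((blk b, i) ∈ T ↔ (blk b, i) ∈ T')) (b : Bool) :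
    alt T b l = alt T' b l := by
  induction l generalizing b with
  | nil => rfl
  | cons i l ih =>
    have ih' := ih fun b j hj => h b j (List.mem_cons_of_mem _ hj)
    simp only [alt, h _ i List.mem_cons_self, ih']

theorem sg_blk (b : Bool) (i : Fin 10) : sg (blk b, i) = (blk (!b), i) := by
  cases b <;> rfl

theorem alt_sg (T : Finset Lb) (l : List (Fin 10)) (b : Bool) :
    alt (T.image sg) b l = alt T (!b) l := by
  induction l generalizing b with
  | nil => rfl
  | cons i l ih => simp only [alt, mem_image_sg, sg_blk, ih]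

theorem blk_ne_two (b : Bool) : blk b ≠ 2 := by cases b <;> decide

theorem blk_ne (b : Bool) : blk b ≠ blk (!b) := by cases b <;> decide

theorem eq_blk (k : Fin 3) (hk : k ≠ 2) (b : Bool) : k = blk b ∨ k = blk (!b) := by
  revert k b; decide

theorem alt_del (T : Finset Lb) (hT : ∀ i, ¬ (((0 : Fin 3), i) ∈ T ∧ ((1 : Fin 3), i) ∈ T))
    (l : List (Fin 10)) (hl : l.Nodup) (b : Bool) :
    ∑ x ∈ T.filter (fun x => x.1 ≠ 2 ∧ x.2 ∈ l), alt (T.erase x) b l
      = alt T b l + alt T (!b) l := by
  induction l generalizing b with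
  | nil => simp [alt, z2_self]
  | cons i l ih =>
    obtain ⟨hi, hl'⟩ := List.nodup_cons.1 hl
    have hT' : ∀ c, ¬ ((blk c, i) ∈ T ∧ (blk (!c), i) ∈ T) := by
      intro c
      cases c
      · exact fun h => hT i ⟨h.2, h.1⟩
      · exact hT i
    -- terms with colour in `l`
    have hrest : ∀ x ∈ T.filter (fun x => x.1 ≠ 2 ∧ x.2 ∈ l), alt (T.erase x) b (i :: l)
        = if (blk b, i) ∈ T then alt (T.erase x) (!b) l else
          if (blk (!b), i) ∈ T then 0 else alt (T.erase x) b l := by
      intro x hx
      have hx2 := (Finset.mem_filter.1 hx).2.2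
      have hne : ∀ c, (blk c, i) ≠ x := fun c e => hi (by rw [← e] at hx2; exact hx2)
      simp only [alt, Finset.mem_erase, hne, ne_eq, not_false_eq_true, true_and]
    have hdel : ∀ c d, alt (T.erase (blk c, i)) d l = alt T d l := by
      intro c d
      apply alt_congr
      intro b' j hj
      have : (blk b', j) ≠ (blk c, i) := fun e => hi (by
        have := congrArg Prod.snd e; simp only at this; rw [← this]; exact hj)
      simp [this]
    by_cases h1 : (blk b, i) ∈ T
    · have h2 : (blk (!b), i) ∉ T := fun h => hT' b ⟨h1, h⟩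
      have hs : T.filter (fun x => x.1 ≠ 2 ∧ x.2 ∈ i :: l)
          = insert (blk b, i) (T.filter (fun x => x.1 ≠ 2 ∧ x.2 ∈ l)) := by
        ext ⟨k, j⟩
        simp only [Finset.mem_filter, List.mem_cons, Finset.mem_insert, Prod.mk.injEq]
        constructor
        · rintro ⟨hm, hk, rfl | hj⟩
          · rcases eq_blk k hk b with rfl | rfl
            · exact Or.inl ⟨rfl, rfl⟩
            · exact absurd hm h2
          · exact Or.inr ⟨hm, hk, hj⟩
        · rintro (⟨rfl, rfl⟩ | ⟨hm, hk, hj⟩)
          · exact ⟨h1, blk_ne_two b, Or.inl rfl⟩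
          · exact ⟨hm, hk, Or.inr hj⟩
      rw [hs, Finset.sum_insert (by simp [hi]), Finset.sum_congr rfl hrest]
      simp only [h1, if_true]
      rw [ih hl' (!b)]
      simp only [alt, Finset.mem_erase, ne_eq, not_true, false_and, if_false, h1, h2, and_false,
        if_true, Bool.not_not, hdel]
      linear_combination (alt T b l) * z2_two
    · by_cases h2 : (blk (!b), i) ∈ T
      · have hs : T.filter (fun x => x.1 ≠ 2 ∧ x.2 ∈ i :: l)
            = insert (blk (!b), i) (T.filter (fun x => x.1 ≠ 2 ∧ x.2 ∈ l)) := by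
          ext ⟨k, j⟩
          simp only [Finset.mem_filter, List.mem_cons, Finset.mem_insert, Prod.mk.injEq]
          constructor
          · rintro ⟨hm, hk, rfl | hj⟩
            · rcases eq_blk k hk b with rfl | rfl
              · exact absurd hm h1
              · exact Or.inl ⟨rfl, rfl⟩
            · exact Or.inr ⟨hm, hk, hj⟩
          · rintro (⟨rfl, rfl⟩ | ⟨hm, hk, hj⟩)
            · exact ⟨h2, blk_ne_two _, Or.inl rfl⟩
            · exact ⟨hm, hk, Or.inr hj⟩
        rw [hs, Finset.sum_insert (by simp [hi]), Finset.sum_congr rfl hrest]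
        simp only [h1, h2, if_true, if_false, Finset.sum_const_zero]
        simp only [alt, Finset.mem_erase, ne_eq, not_true, false_and, if_false, h1, h2, and_false,
          if_true, Bool.not_not, hdel]
        ring
      · have hs : T.filter (fun x => x.1 ≠ 2 ∧ x.2 ∈ i :: l)
            = T.filter (fun x => x.1 ≠ 2 ∧ x.2 ∈ l) := by
          ext ⟨k, j⟩
          simp only [Finset.mem_filter, List.mem_cons]
          constructor
          · rintro ⟨hm, hk, rfl | hj⟩
            · rcases eq_blk k hk b with rfl | rfl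
              · exact absurd hm h1
              · exact absurd hm h2
            · exact ⟨hm, hk, hj⟩
          · rintro ⟨hm, hk, hj⟩
            exact ⟨hm, hk, Or.inr hj⟩
        rw [hs, Finset.sum_congr rfl hrest]
        simp only [h1, h2, if_false]
        rw [ih hl' b]
        simp only [alt, h1, h2, if_false, Bool.not_not]

def cols : List (Fin 10) := [0, 1, 2, 3, 4, 5, 6, 7, 8, 9]

theorem mem_cols (i : Fin 10) : i ∈ cols := by revert i; decide

theorem cols_nodup : cols.Nodup := by decide

/-- block `k` of a label set -/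
def bset (T : Finset Lb) (k : Fin 3) : Finset (Fin 10) :=
  (T.filter (fun x => x.1 = k)).image Prod.snd

theorem mem_bset (T : Finset Lb) (k : Fin 3) (i : Fin 10) : i ∈ bset T k ↔ (k, i) ∈ T := by
  simp only [bset, Finset.mem_image, Finset.mem_filter]
  constructor
  · rintro ⟨⟨k', j⟩, ⟨h, rfl⟩, rfl⟩; exact h
  · intro h; exact ⟨(k, i), ⟨h, rfl⟩, rfl⟩

theorem bset_sg (T : Finset Lb) (k : Fin 3) : bset (T.image sg) k = bset T (sw k) := by
  ext i; rw [mem_bset, mem_bset, mem_image_sg]; rfl

def alt2 (T : Finset Lb) : Z2 := alt T true cols + alt T false cols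

theorem alt2_sg (T : Finset Lb) : alt2 (T.image sg) = alt2 T := by
  simp only [alt2, alt_sg, Bool.not_true, Bool.not_false]; ring

/-- Ky Fan coboundary identity -/
theorem dS_alt (T : Finset Lb) (hT : ∀ i, ¬ (((0 : Fin 3), i) ∈ T ∧ ((1 : Fin 3), i) ∈ T))
    (hz : ∀ x ∈ T, x.1 ≠ 2) :
    dS (fun T => alt T true cols) T = alt T true cols + alt T false cols := by
  have := alt_del T hT cols cols_nodup true
  rw [Finset.filter_true_of_mem (fun x hx => ⟨hz x hx, mem_cols _⟩)] at this
  exact this

def phi (A : Finset (Fin 10)) (T : Finset Lb) : Z2 := if bset T 2 = A then alt2 T else 0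

theorem phi_sg (A : Finset (Fin 10)) (T : Finset Lb) : phi A (T.image sg) = phi A T := by
  simp only [phi, bset_sg, alt2_sg]; rfl

theorem dS_phi (A : Finset (Fin 10)) (T : Finset Lb)
    (hT : ∀ i, ¬ (((0 : Fin 3), i) ∈ T ∧ ((1 : Fin 3), i) ∈ T))
    (hA : ∀ j, j ∉ A → ¬ (insert j A ⊆ bset T 2)) : dS (phi A) T = 0 := by
  unfold dS
  rw [← Finset.sum_filter_add_sum_filter_not T (fun x => x.1 ≠ 2 ∧ x.2 ∈ cols)]
  have h2 : ∑ x ∈ T.filter (fun x => ¬ (x.1 ≠ 2 ∧ x.2 ∈ cols)), phi A (T.erase x) = 0 := by
    refine Finset.sum_eq_zero fun x hx => ?_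
    obtain ⟨hxT, hx2⟩ := Finset.mem_filter.1 hx
    have hx3 : x.1 = 2 := by
      by_contra h; exact hx2 ⟨h, mem_cols _⟩
    unfold phi
    rw [if_neg]
    intro e
    have hxe : x = (2, x.2) := by rw [← hx3]
    apply hA x.2
    · rw [← e, mem_bset, ← hxe]; simp
    · intro i hi
      rw [mem_bset]
      rcases Finset.mem_insert.1 hi with rfl | hi
      · rwa [← hxe]
      · rw [← e, mem_bset] at hi
        exact Finset.mem_of_mem_erase hi
  rw [h2, add_zero]
  have h3 : ∀ x ∈ T.filter (fun x => x.1 ≠ 2 ∧ x.2 ∈ cols), phi A (T.erase x)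
      = if bset T 2 = A then alt (T.erase x) true cols + alt (T.erase x) false cols else 0 := by
    intro x hx
    have hx2 := (Finset.mem_filter.1 hx).2.1
    have : bset (T.erase x) 2 = bset T 2 := by
      ext i
      rw [mem_bset, mem_bset, Finset.mem_erase]
      have : ((2 : Fin 3), i) ≠ x := fun e => hx2 (by rw [← e])
      simp [this]
    simp only [phi, this, alt2]
  rw [Finset.sum_congr rfl h3]
  split_ifs
  · rw [Finset.sum_add_distrib, alt_del T hT cols cols_nodup, alt_del T hT cols cols_nodup]
    simp only [Bool.not_true, Bool.not_false]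
    linear_combination (alt T true cols + alt T false cols) * z2_two
  · simp

theorem alt_one_side (T : Finset Lb) (c : Bool) (hc : ∀ i, (blk (!c), i) ∉ T)
    (l : List (Fin 10)) :
    (∀ i ∈ l, (blk c, i) ∈ T → alt T (!c) l = 0) ∧
    (∀ i ∈ l, ∀ j ∈ l, i ≠ j → (blk c, i) ∈ T → (blk c, j) ∈ T → alt T c l = 0) := by
  induction l with
  | nil => simp
  | cons a l ih =>
    constructor
    · intro i hi hT
      simp only [alt, hc, if_false, Bool.not_not]
      split_ifs with h
      · rfl
      · rcases List.mem_cons.1 hi with rfl | hi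
        · exact absurd hT h
        · exact ih.1 i hi hT
    · intro i hi j hj hij hiT hjT
      simp only [alt, hc, if_false]
      split_ifs with h
      · rcases List.mem_cons.1 hi with rfl | hi
        · rcases List.mem_cons.1 hj with rfl | hj
          · exact absurd rfl hij
          · exact ih.1 j hj hjT
        · exact ih.1 i hi hiT
      · rcases List.mem_cons.1 hi with rfl | hi
        · exact absurd hiT h
        · rcases List.mem_cons.1 hj with rfl | hj
          · exact absurd hjT h
          · exact ih.2 i hi j hj hij hiT hjT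

theorem card_eq_bsets (T : Finset Lb) :
    T.card = (bset T 0).card + (bset T 1).card + (bset T 2).card := by
  have h : ∀ k, (bset T k).card = (T.filter (fun x => x.1 = k)).card := by
    intro k
    apply Finset.card_image_of_injOn
    rintro ⟨a, b⟩ ha ⟨c, d⟩ hc e
    simp only [Finset.coe_filter, Set.mem_ofPred_eq] at ha hc e
    rw [ha.2, hc.2, e]
  rw [Finset.card_eq_sum_card_fiberwise (f := Prod.fst) (t := Finset.univ)
    (fun _ _ => Finset.mem_univ _), Fin.sum_univ_three, h, h, h]

theorem phi_one_side (A : Finset (Fin 10)) (T : Finset Lb) (hc : A.card + 2 ≤ T.card)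
    (h : bset T 0 = ∅ ∨ bset T 1 = ∅) : phi A T = 0 := by
  unfold phi
  split_ifs with hA
  · have hcard := card_eq_bsets T
    rw [hA] at hcard
    have key : ∀ c : Bool, bset T (blk (!c)) = ∅ → 1 < (bset T (blk c)).card → alt2 T = 0 := by
      intro c h1 h2
      obtain ⟨i, hi, j, hj, hij⟩ := Finset.one_lt_card.1 h2
      rw [mem_bset] at hi hj
      have := alt_one_side T c (fun i hi => by
        rw [← mem_bset, h1] at hi; simp at hi) cols
      have e1 := this.1 i (mem_cols _) hi
      have e2 := this.2 i (mem_cols _) j (mem_cols _) hij hi hj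
      cases c
      · simp only [Bool.not_false] at e1; simp [alt2, e1, e2]
      · simp only [Bool.not_true] at e1; simp [alt2, e1, e2]
    rcases h with h | h
    · refine key false h ?_
      rw [h] at hcard
      show 1 < (bset T 1).card
      simp at hcard; omega
    · refine key true h ?_
      rw [h] at hcard
      show 1 < (bset T 0).card
      simp at hcard; omega
  · rfl

end Crest.Agent.Borsuk
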