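import Crest.Agent.Borsuk.Alt

set_option autoImplicit false

namespace Crest.Agent.Borsuk

def enc (T : Finset Lb) : ℕ := ∑ x ∈ T, (x.1.val + 1) * 4 ^ x.2.val

def ind (l : List ℕ) (m : ℕ) : Z2 := if m ∈ l then 1 else 0

def Phi (l : List ℕ) (T : Finset Lb) : Z2 :=
  phi ∅ T + if bset T 0 ≠ ∅ ∧ bset T 1 ≠ ∅ ∧ bset T 2 ≠ ∅ then
    ind l (enc T) + ind l (enc (T.image sg)) else 0

theorem Phi_sg (l : List ℕ) (T : Finset Lb) : Phi l (T.image sg) = Phi l T := by
  simp only [Phi, phi_sg, bset_sg, image_sg_sg]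
  congr 1
  have e0 : sw 0 = 1 := rfl
  have e1 : sw 1 = 0 := rfl
  have e2 : sw 2 = 2 := rfl
  rw [e0, e1, e2, add_comm]
  congr 1
  exact propext and_left_comm

theorem Phi_zero (l : List ℕ) (T : Finset Lb) (h : ∀ x ∈ T, x.1 ≠ 2) : Phi l T = alt2 T := by
  have : bset T 2 = ∅ := by
    ext i; rw [mem_bset]; simp only [Finset.notMem_empty, iff_false]
    exact fun hi => h _ hi rfl
  simp [Phi, phi, this]

theorem Phi_one (l : List ℕ) (T : Finset Lb) (hc : T.card = 5)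
    (h : bset T 0 = ∅ ∨ bset T 1 = ∅) : Phi l T = 0 := by
  unfold Phi
  rw [phi_one_side _ _ (by simp [hc]) h, if_neg, add_zero]
  rintro ⟨h0, h1, -⟩
  rcases h with h | h
  · exact h0 h
  · exact h1 h

def cell (a b c d e f : Fin 3) : Finset Lb := {(a, 0), (b, 1), (c, 2), (d, 3), (e, 4), (f, 5)}

def okc (forb : List (Finset (Fin 10))) (T : Finset Lb) : Prop :=
  ∀ k, bset T k ≠ ∅ ∧ (bset T k).card ≤ 3 ∧ bset T k ∉ forb

instance (forb : List (Finset (Fin 10))) (T : Finset Lb) : Decidable (okc forb T) := by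
  unfold okc; infer_instance

def lX : List ℕ := [473, 1145, 1241, 1257, 1337, 1457, 1481, 1829, 1833, 1865, 1925, 1929, 1969,
  1993, 2017, 2141, 2165, 2327, 2333, 2451, 2460, 2513, 2516, 2589, 2617, 2673, 2684, 2761, 2769,
  2857, 2889, 2897, 2929, 2940, 3017, 3025, 3036, 3057, 3060, 3353]
def lC1 : List ℕ := [473, 1145, 1241, 1761, 1817, 1865, 1889, 2141, 2261, 2265, 2327, 2333, 2451,
  2460, 2516, 2524, 2589, 2769, 2837, 2841, 2897, 2961, 2972, 3353]
def lC3 : List ℕ := [473, 1145, 1737, 1777, 1833, 1865, 1929, 1969, 2017, 2165, 2169, 2261, 2265,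
  2327, 2357, 2361, 2445, 2451, 2460, 2481, 2516, 2545, 2556, 2613, 2617, 2757, 2761, 2929, 2940,
  3025, 3036, 3353]
def lG : List ℕ := [473, 1253, 1649, 1660, 1733, 1737, 1777, 1817, 1993, 2017, 2141, 2169, 2261,
  2327, 2333, 2357, 2361, 2451, 2460, 2481, 2513, 2516, 2545, 2556, 2589, 2617, 2761, 2769, 2857,
  2889, 2897, 3017, 3025, 3036, 3057, 3060, 3353]

theorem cell_card : ∀ a b c d e f : Fin 3, (cell a b c d e f).card = 6 := by decide +kernel

theorem eq_cell (T : Finset Lb) (hc : T.card = 6)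
    (hd : ∀ k k' i, (k, i) ∈ T → (k', i) ∈ T → k = k') (h6 : ∀ x ∈ T, x.2.val < 6) :
    ∃ a b c d e f, T = cell a b c d e f := by
  have hinj : Set.InjOn Prod.snd (T : Set Lb) := by
    rintro ⟨a, i⟩ ha ⟨b, j⟩ hb e
    simp only at e
    subst e
    rw [hd a b i ha hb]
  have him : T.image Prod.snd = ({0, 1, 2, 3, 4, 5} : Finset (Fin 10)) := by
    apply Finset.eq_of_subset_of_card_le
    · intro i hi
      obtain ⟨x, hx, rfl⟩ := Finset.mem_image.1 hi
      have := h6 x hx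
      revert this; generalize x.2 = i; revert i; decide
    · rw [Finset.card_image_of_injOn hinj, hc]; decide
  have hex : ∀ i ∈ ({0, 1, 2, 3, 4, 5} : Finset (Fin 10)), ∃ k, (k, i) ∈ T := by
    intro i hi
    rw [← him] at hi
    obtain ⟨⟨k, j⟩, hx, rfl⟩ := Finset.mem_image.1 hi
    exact ⟨k, hx⟩
  obtain ⟨a, ha⟩ := hex 0 (by decide)
  obtain ⟨b, hb⟩ := hex 1 (by decide)
  obtain ⟨c, hc'⟩ := hex 2 (by decide)
  obtain ⟨d, hd'⟩ := hex 3 (by decide)
  obtain ⟨e, he⟩ := hex 4 (by decide)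
  obtain ⟨f, hf⟩ := hex 5 (by decide)
  refine ⟨a, b, c, d, e, f, ?_⟩
  symm
  apply Finset.eq_of_subset_of_card_le
  · intro x hx
    simp only [cell, Finset.mem_insert, Finset.mem_singleton] at hx
    rcases hx with rfl | rfl | rfl | rfl | rfl | rfl <;> assumption
  · rw [hc, cell_card]

end Crest.Agent.Borsuk
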