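import Crest.Agent.Borsuk.Cert

set_option autoImplicit false

namespace Crest.Agent.Borsuk

theorem certC3 : ∀ a b c d e f : Fin 3,
    okc [{3, 4, 5}, {2, 4, 5}, {2, 3, 5}, {0, 1, 5}] (cell a b c d e f) →
    dS (Phi lC3) (cell a b c d e f) = 0 := by decide +kernel

theorem certG : ∀ a b c d e f : Fin 3, okc [{3, 4, 5}] (cell a b c d e f) →
    dS (Phi lG) (cell a b c d e f) = phi {0, 1, 2} (cell a b c d e f) := by decide +kernel

end Crest.Agent.Borsuk
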