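import Crest.Agent.Borsuk.Frames

set_option autoImplicit false

namespace Crest.Agent.Borsuk

structure Col where
  A : Fin 10 → Set V4
  closed : ∀ i, IsClosed (A i)
  neg : ∀ i v, v ∈ A i → -v ∈ A i
  cover : ∀ v, v ≠ 0 → ∃ i, v ∈ A i
  orth : ∀ i v w, v ∈ A i → w ∈ A i → v ≠ 0 → w ≠ 0 → d4 v w ≠ 0

def Col.N (c : Col) (T : Finset (Fin 10)) : Prop := ∃ v, v ≠ 0 ∧ ∀ i ∈ T, v ∈ c.A i

def Col.Adm (c : Col) (T : Finset Lb) : Prop :=
  (∀ k k' i, (k, i) ∈ T → (k', i) ∈ T → k = k') ∧ ∀ k, c.N (bset T k)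

abbrev YY := V5 × ℝ × ℝ

def KK : Set YY := {x : V5 | ∑ i, |x i| = 1} ×ˢ (Set.Icc (0 : ℝ) 1 ×ˢ Set.Icc (0 : ℝ) 1)

theorem isCompact_KK : IsCompact KK := (isCompact_l1 5).prod (isCompact_Icc.prod isCompact_Icc)

def nn (n0 n1 : V4) (s : ℝ) : V4 := (1 - s) • n0 + s • n1

theorem nn_ne {n0 n1 : V4} (h0 : n0 ≠ 0) (h1 : n1 ≠ 0) (hd : 0 ≤ d4 n0 n1) {s : ℝ}
    (hs0 : 0 ≤ s) (hs1 : s ≤ 1) : nn n0 n1 s ≠ 0 := by
  intro e
  have e1 : d4 (nn n0 n1 s) n0 = (1 - s) * d4 n0 n0 + s * d4 n0 n1 := by simp [d4, nn]; ring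
  have e2 : d4 (nn n0 n1 s) n1 = (1 - s) * d4 n0 n1 + s * d4 n1 n1 := by simp [d4, nn]; ring
  have p0 := d4_pos h0
  have p1 := d4_pos h1
  have z1 : d4 0 n0 = 0 := by simp [d4]
  have z2 : d4 0 n1 = 0 := by simp [d4]
  rw [e, z1] at e1; rw [e, z2] at e2
  nlinarith [mul_nonneg hs0 hd, mul_nonneg (sub_nonneg.2 hs1) hd, mul_nonneg hs0 p1.le,
    mul_nonneg (sub_nonneg.2 hs1) p0.le]

def FF (c : Col) (n0 n1 : V4) (l : Lb) : Set YY :=
  {p | p ∈ KK ∧ ∃ x y, Top p.1 x ∧ Top (-p.1) y ∧ Rg l.1 (Bf p.1 x x) (Bf (-p.1) y y) p.2.1 ∧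
    iota (nn n0 n1 p.2.2) (vec l.1 x y) ∈ c.A l.2}

theorem isClosed_Top {X : Type} [TopologicalSpace X] {M : X → V5} {x : X → V3}
    (hM : Continuous M) (hx : Continuous x) : IsClosed {p | Top (M p) (x p)} := by
  unfold Top
  rw [Set.ofPred_and, Set.ofPred_forall]
  refine IsClosed.inter (isClosed_eq (by unfold d3; fun_prop) continuous_const)
    (isClosed_iInter fun v => isClosed_le (by unfold Bf; fun_prop) (by unfold Bf; fun_prop))

theorem isClosed_Rg {X : Type} [TopologicalSpace X] (k : Fin 3) {a b τ : X → ℝ}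
    (ha : Continuous a) (hb : Continuous b) (hτ : Continuous τ) :
    IsClosed {p | Rg k (a p) (b p) (τ p)} := by
  unfold Rg
  split_ifs
  · exact isClosed_le (by fun_prop) (by fun_prop)
  · exact isClosed_le (by fun_prop) (by fun_prop)
  · rw [Set.ofPred_and, Set.ofPred_and]
    exact (isClosed_le (by fun_prop) (by fun_prop)).inter
      ((isClosed_le (by fun_prop) (by fun_prop)).inter (isClosed_le (by fun_prop) (by fun_prop)))

theorem continuous_vec (k : Fin 3) : Continuous fun p : V3 × V3 => vec k p.1 p.2 := by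
  unfold vec
  split_ifs
  · fun_prop
  · fun_prop
  · unfold cr; fun_prop

theorem continuous_iota : Continuous fun p : V4 × V3 => iota p.1 p.2 := by
  unfold iota; fun_prop

theorem isClosed_FF (c : Col) (n0 n1 : V4) (l : Lb) : IsClosed (FF c n0 n1 l) := by
  let Z : Set (YY × V3 × V3) := (KK ×ˢ ({x : V3 | d3 x x = 1} ×ˢ {x : V3 | d3 x x = 1})) ∩
    ({q | Top q.1.1 q.2.1} ∩ ({q | Top (-q.1.1) q.2.2} ∩
      ({q | Rg l.1 (Bf q.1.1 q.2.1 q.2.1) (Bf (-q.1.1) q.2.2 q.2.2) q.1.2.1} ∩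
      {q | iota (nn n0 n1 q.1.2.2) (vec l.1 q.2.1 q.2.2) ∈ c.A l.2})))
  have hZ : IsCompact Z := by
    refine (isCompact_KK.prod (isCompact_S2.prod isCompact_S2)).inter_right ?_
    refine (isClosed_Top (by fun_prop) (by fun_prop)).inter
      ((isClosed_Top (by fun_prop) (by fun_prop)).inter
      ((isClosed_Rg _ (by unfold Bf; fun_prop) (by unfold Bf; fun_prop) (by fun_prop)).inter ?_))
    refine (c.closed l.2).preimage (f := fun q : YY × V3 × V3 =>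
      iota (nn n0 n1 q.1.2.2) (vec l.1 q.2.1 q.2.2)) ?_
    exact continuous_iota.comp (f := fun q : YY × V3 × V3 =>
      (nn n0 n1 q.1.2.2, vec l.1 q.2.1 q.2.2))
      (Continuous.prodMk (by unfold nn; fun_prop) ((continuous_vec l.1).comp continuous_snd))
  have : FF c n0 n1 l = Prod.fst '' Z := by
    ext p
    constructor
    · rintro ⟨hp, x, y, h1, h2, h3, h4⟩
      exact ⟨(p, x, y), ⟨⟨hp, h1.1, h2.1⟩, h1, h2, h3, h4⟩, rfl⟩
    · rintro ⟨⟨p, x, y⟩, ⟨⟨hp, -, -⟩, h1, h2, h3, h4⟩, rfl⟩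
      exact ⟨hp, x, y, h1, h2, h3, h4⟩
  rw [this]
  exact (hZ.image continuous_fst).isClosed

def nu (p : YY) : YY := (-p.1, p.2)

theorem FF_nu (c : Col) (n0 n1 : V4) (l : Lb) (p : YY) (h : nu p ∈ FF c n0 n1 l) :
    p ∈ FF c n0 n1 (sg l) := by
  obtain ⟨hp, x, y, h1, h2, h3, h4⟩ := h
  simp only [nu, neg_neg] at h1 h2 h3 h4
  refine ⟨⟨by simpa [nu] using hp.1, hp.2⟩, y, x, h2, h1, Rg_sw _ _ _ _ h3, ?_⟩
  obtain ⟨k, i⟩ := l
  fin_cases k
  · simpa [vec, sg, sw] using h4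
  · simpa [vec, sg, sw] using h4
  · simp only [vec, sg, sw] at h4 ⊢
    simp at h4 ⊢
    rw [cr_swap, iota_neg]
    exact c.neg _ _ h4

section
variable (c : Col) {n0 n1 : V4} (h0 : n0 ≠ 0) (h1 : n1 ≠ 0) (hd : 0 ≤ d4 n0 n1)
include h0 h1 hd

theorem FF_cover (p : YY) (hp : p ∈ KK) : ∃ l, p ∈ FF c n0 n1 l := by
  obtain ⟨x, hx⟩ := exists_top p.1
  obtain ⟨y, hy⟩ := exists_top (-p.1)
  obtain ⟨k, hk⟩ := Rg_cover (top_sum_pos hp.1 hx hy) hp.2.1.2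
  obtain ⟨i, hi⟩ := c.cover (iota (nn n0 n1 p.2.2) (vec k x y))
    (iota_ne (nn_ne h0 h1 hd hp.2.2.1 hp.2.2.2) (vec_unit hx.1 hy.1 (top_orth hp.1 hx hy) k))
  exact ⟨(k, i), hp, x, y, hx, hy, hk, hi⟩

theorem exists_lab : ∃ Λ : YY → Lb, (∀ p, Λ (nu p) = sg (Λ p)) ∧
    ∀ p ∈ KK, p ∈ FF c n0 n1 (Λ p) := by
  classical
  obtain ⟨Pos, hPos⟩ := exists_pos V5
  have : ∀ p, ∃ l, p ∈ KK → p ∈ FF c n0 n1 l := by
    intro p
    by_cases hp : p ∈ KK
    · obtain ⟨l, hl⟩ := FF_cover c h0 h1 hd p hp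
      exact ⟨l, fun _ => hl⟩
    · exact ⟨(0, 0), fun h => absurd h hp⟩
  choose sel hsel using this
  refine ⟨fun p => if p.1 = 0 then (2, 0) else if Pos p.1 then sel p else sg (sel (nu p)), ?_, ?_⟩
  · intro p
    by_cases hp : p.1 = 0
    · simp [nu, hp]; rfl
    · have e : nu (nu p) = p := by simp [nu]
      have hp' : (nu p).1 ≠ 0 := by simpa [nu] using hp
      have hP : Pos (nu p).1 ↔ ¬ Pos p.1 := hPos _ hp
      simp only [hp, hp', if_false, hP, e]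
      by_cases h : Pos p.1
      · simp [h]
      · simp [h, sg_sg]
  · intro p hp
    have hp0 : p.1 ≠ 0 := by
      intro e
      have := hp.1
      simp [e] at this
    simp only [hp0, if_false]
    split_ifs
    · exact hsel p hp
    · exact FF_nu c n0 n1 _ p (hsel _ ⟨by simpa [nu] using hp.1, hp.2⟩)

theorem FF_avoid {p : YY} {l : Lb} (h : p ∈ FF c n0 n1 l) : nn n0 n1 p.2.2 ∉ c.A l.2 := by
  obtain ⟨hp, x, y, hx, hy, -, h4⟩ := h
  intro hn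
  have hne := nn_ne h0 h1 hd hp.2.2.1 hp.2.2.2
  exact c.orth _ _ _ h4 hn (iota_ne hne (vec_unit hx.1 hy.1 (top_orth hp.1 hx hy) _)) hne
    (d4_iota_self _ _)

omit h0 h1 hd in
theorem FF_tau0 {p : YY} {l : Lb} (h : p ∈ FF c n0 n1 l) (ht : p.2.1 = 0) : l.1 ≠ 2 := by
  obtain ⟨-, x, y, -, -, h3, -⟩ := h
  intro e
  rw [e, ht] at h3
  simp only [Rg] at h3
  rw [if_neg (by decide), if_neg (by decide)] at h3
  norm_num at h3

omit h0 h1 hd in
theorem FF_tau1 {p : YY} {i j : Fin 10} (h : p ∈ FF c n0 n1 (0, i)) (h' : p ∈ FF c n0 n1 (1, j))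
    (ht : p.2.1 = 1) : False := by
  obtain ⟨hp, x, y, hx, hy, h3, -⟩ := h
  obtain ⟨-, x', y', hx', hy', h3', -⟩ := h'
  have := top_sum_pos hp.1 hx hy
  rw [← top_val hx hx', ← top_val hy hy'] at h3'
  simp only [Rg, ht] at h3 h3'
  simp at h3 h3'
  linarith

theorem FF_adm {p : YY} (hp : p ∈ KK) (T : Finset Lb) (h : ∀ l ∈ T, p ∈ FF c n0 n1 l) :
    c.Adm T := by
  obtain ⟨x, hx⟩ := exists_top p.1
  obtain ⟨y, hy⟩ := exists_top (-p.1)
  have hne := nn_ne h0 h1 hd hp.2.2.1 hp.2.2.2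
  have hxy := top_orth hp.1 hx hy
  have hpos := top_sum_pos hp.1 hx hy
  have hτ := hp.2.1.1
  have key : ∀ l ∈ T, iota (nn n0 n1 p.2.2) (vec l.1 x y) ∈ c.A l.2 := by
    rintro ⟨k, i⟩ hl
    obtain ⟨-, x', y', hx', hy', h3, h4⟩ := h _ hl
    rw [← top_val hx hx', ← top_val hy hy'] at h3
    have ux : Bf (-p.1) y y < 2 * Bf p.1 x x → x' = x ∨ x' = -x := top_uniq hx hx' hy
    have uy : Bf p.1 x x < 2 * Bf (-p.1) y y → y' = y ∨ y' = -y := by
      intro hh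
      refine top_uniq hy hy' (y := x) (by simpa using hx) (by simpa using hh)
    have hneg : ∀ v, iota (nn n0 n1 p.2.2) (-v) ∈ c.A i → iota (nn n0 n1 p.2.2) v ∈ c.A i := by
      intro v hv
      have := c.neg _ _ hv
      rwa [iota_neg, neg_neg] at this
    fin_cases k
    · simp [Rg, vec] at h3 h4 ⊢
      rcases ux (by nlinarith) with rfl | rfl
      · exact h4
      · exact hneg _ h4
    · simp [Rg, vec] at h3 h4 ⊢
      rcases uy (by nlinarith) with rfl | rfl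
      · exact h4
      · exact hneg _ h4
    · simp [Rg, vec] at h3 h4 ⊢
      rcases ux (by linarith [h3.1]) with rfl | rfl <;>
        rcases uy (by linarith [h3.2.1]) with rfl | rfl
      · exact h4
      · rw [cr_neg_right] at h4; exact hneg _ h4
      · rw [cr_neg_left] at h4; exact hneg _ h4
      · rw [cr_neg_left, cr_neg_right, neg_neg] at h4; exact h4
  have hv : ∀ k, iota (nn n0 n1 p.2.2) (vec k x y) ≠ 0 := fun k =>
    iota_ne hne (vec_unit hx.1 hy.1 hxy k)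
  constructor
  · intro k k' i hk hk'
    by_contra hkk
    refine c.orth i _ _ (key _ hk) (key _ hk') (hv k) (hv k') ?_
    rw [d4_iota, vec_orth hxy k k' hkk, mul_zero]
  · intro k
    refine ⟨_, hv k, fun i hi => key (k, i) ((mem_bset _ _ _).1 hi)⟩

/-- the labelling with its local admissibility properties -/
theorem exists_lab_eps : ∃ (Λ : YY → Lb) (ε : ℝ), 0 < ε ∧ (∀ p, Λ (nu p) = sg (Λ p)) ∧
    (∀ p ∈ KK, p ∈ FF c n0 n1 (Λ p)) ∧
    ∀ (T : Finset Lb) (x : YY), x ∈ KK → (∀ l ∈ T, ∃ p ∈ KK, dist x p ≤ ε ∧ Λ p = l) →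
      c.Adm T ∧ (x.2.1 = 1 → bset T 0 = ∅ ∨ bset T 1 = ∅) := by
  obtain ⟨Λ, hΛ, hF⟩ := exists_lab c h0 h1 hd
  let G : Option Lb → Set YY := fun o => o.elim {p | p.2.1 = 1} (FF c n0 n1)
  have hG : ∀ o, IsClosed (G o) := by
    rintro (_ | l)
    · exact isClosed_eq (by fun_prop) continuous_const
    · exact isClosed_FF c n0 n1 l
  obtain ⟨ε, hε, hl⟩ := leb isCompact_KK G hG
  refine ⟨Λ, ε, hε, hΛ, hF, fun T x hx hT => ?_⟩
  obtain ⟨p, hp, hpG⟩ := hl x hx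
  have hpT : ∀ l ∈ T, p ∈ FF c n0 n1 l := by
    intro l hlT
    obtain ⟨q, hq, hdq, rfl⟩ := hT l hlT
    exact hpG (some (Λ q)) ⟨q, hF q hq, hdq⟩
  refine ⟨FF_adm c h0 h1 hd hp T hpT, fun hx1 => ?_⟩
  have hp1 : p.2.1 = 1 := hpG none ⟨x, hx1, by simp [hε.le]⟩
  by_contra hn
  push Not at hn
  obtain ⟨⟨i, hi⟩, ⟨j, hj⟩⟩ := hn
  exact FF_tau1 c (hpT _ ((mem_bset _ _ _).1 hi)) (hpT _ ((mem_bset _ _ _).1 hj)) hp1

end

end Crest.Agent.Borsuk
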