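import Crest.Agent.Borsuk.Main
import Crest.Agent.Borsuk.CertA
import Crest.Agent.Borsuk.CertB

set_option autoImplicit false

namespace Crest.Agent.Borsuk

theorem exists_orth (a b c : V4) : ∃ w : V4, w ≠ 0 ∧ d4 a w = 0 ∧ d4 b w = 0 ∧ d4 c w = 0 := by
  let φ : V4 →ₗ[ℝ] V3 := Matrix.mulVecLin (Matrix.of ![a, b, c])
  have : LinearMap.ker φ ≠ ⊥ := LinearMap.ker_ne_bot_of_finrank_lt (by simp)
  obtain ⟨w, hw, hw0⟩ := Submodule.exists_mem_ne_zero_of_ne_bot this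
  have h : φ w = 0 := hw
  have h0 := congrFun h 0
  have h1 := congrFun h 1
  have h2 := congrFun h 2
  simp [φ, Matrix.mulVec, dotProduct, Fin.sum_univ_four] at h0 h1 h2
  exact ⟨w, hw0, h0, h1, h2⟩

theorem d4_comm (a b : V4) : d4 a b = d4 b a := by unfold d4; ring

namespace Col
variable (c : Col)

theorem N_mono {T T' : Finset (Fin 10)} (h : c.N T) (hs : T' ⊆ T) : c.N T' := by
  obtain ⟨v, hv, h⟩ := h
  exact ⟨v, hv, fun i hi => h i (hs hi)⟩

theorem lemS {T1 T2 T3 : Finset (Fin 10)} (h1 : c.N T1) (h2 : c.N T2) (h3 : c.N T3)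
    (h : ∀ i, i ∈ T1 ∨ i ∈ T2 ∨ i ∈ T3) : False := by
  obtain ⟨a, ha, h1⟩ := h1
  obtain ⟨b, hb, h2⟩ := h2
  obtain ⟨d, hd, h3⟩ := h3
  obtain ⟨w, hw, e1, e2, e3⟩ := exists_orth a b d
  obtain ⟨i, hi⟩ := c.cover w hw
  rcases h i with h | h | h
  · exact c.orth i _ _ (h1 i h) hi ha hw e1
  · exact c.orth i _ _ (h2 i h) hi hb hw e2
  · exact c.orth i _ _ (h3 i h) hi hd hw e3

theorem lemL {T1 T2 : Finset (Fin 10)} (h1 : c.N T1) (h2 : c.N T2) (j k : Fin 10)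
    (h : ∀ i, i ∈ T1 ∨ i ∈ T2 ∨ i = j ∨ i = k) : False := by
  have h1' := h1
  have h2' := h2
  obtain ⟨a, ha, h1⟩ := h1
  obtain ⟨b, hb, h2⟩ := h2
  obtain ⟨u, hu, e1, e2, -⟩ := exists_orth a b a
  obtain ⟨u', hu', e1', e2', e3⟩ := exists_orth a b u
  have hne : ∀ s ∈ Set.Icc (0 : ℝ) 1, nn u u' s ≠ 0 := fun s hs => nn_ne hu hu' e3.ge hs.1 hs.2
  have hcol : ∀ s ∈ Set.Icc (0 : ℝ) 1, nn u u' s ∈ c.A j ∨ nn u u' s ∈ c.A k := by
    intro s hs
    obtain ⟨i, hi⟩ := c.cover _ (hne s hs)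
    rcases h i with h | h | rfl | rfl
    · refine absurd ?_ (c.orth i _ _ (h1 i h) hi ha (hne s hs))
      have : d4 a (nn u u' s) = (1 - s) * d4 a u + s * d4 a u' := by simp [d4, nn]; ring
      rw [this, e1, e1']; ring
    · refine absurd ?_ (c.orth i _ _ (h2 i h) hi hb (hne s hs))
      have : d4 b (nn u u' s) = (1 - s) * d4 b u + s * d4 b u' := by simp [d4, nn]; ring
      rw [this, e2, e2']; ring
    · exact Or.inl hi
    · exact Or.inr hi
  have hc : Continuous (nn u u') := by unfold nn; fun_prop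
  have n0 : nn u u' 0 = u := by simp [nn]
  have n1 : nn u u' 1 = u' := by simp [nn]
  have key : ∀ j k : Fin 10, (∀ s ∈ Set.Icc (0 : ℝ) 1, nn u u' s ∈ c.A j ∨ nn u u' s ∈ c.A k) →
      u ∈ c.A j → c.N {j, k} := by
    intro j k hcol hj
    have hk : u' ∈ c.A k := by
      rcases hcol 1 (by simp) with h | h
      · rw [n1] at h; exact absurd e3 (c.orth j _ _ hj h hu hu')
      · rwa [n1] at h
    obtain ⟨s, hs, hs1, hs2⟩ := isPreconnected_closed_iff.1 (isPreconnected_Icc (a := (0 : ℝ))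
      (b := 1)) _ _ ((c.closed j).preimage hc) ((c.closed k).preimage hc) hcol
      ⟨0, by simp, by simpa [n0] using hj⟩ ⟨1, by simp, by simpa [n1] using hk⟩
    refine ⟨_, hne s hs, fun i hi => ?_⟩
    rcases Finset.mem_insert.1 hi with rfl | hi
    · exact hs1
    · rw [Finset.mem_singleton.1 hi]; exact hs2
  have : c.N {j, k} := by
    rcases hcol 0 (by simp) with h0 | h0
    · exact key j k hcol (by rwa [n0] at h0)
    · rw [Finset.pair_comm]
      exact key k j (fun s hs => (hcol s hs).symm) (by rwa [n0] at h0)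
  exact c.lemS h1' h2' this fun i => by simpa using h i

end Col

theorem cellE : ∀ a b c d e f : Fin 3, ∀ k, bset (cell a b c d e f) k = ∅ →
    ∃ k1 k2, ∀ i, i ∈ ({6, 7, 8, 9} : Finset (Fin 10)) ∨ i ∈ bset (cell a b c d e f) k1 ∨
      i ∈ bset (cell a b c d e f) k2 := by decide +kernel

theorem cellL : ∀ a b c d e f : Fin 3, ∀ k, ¬ (bset (cell a b c d e f) k).card ≤ 3 →
    ∃ j j' : Fin 10, ∀ i, i ∈ ({6, 7, 8, 9} : Finset (Fin 10)) ∨ i ∈ bset (cell a b c d e f) k ∨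
      i = j ∨ i = j' := by decide +kernel

namespace Col
variable (c : Col)

theorem tight (forb : List (Finset (Fin 10))) (hf : ∀ B ∈ forb, ¬ c.N B) {n0 : V4}
    (h0 : n0 ≠ 0) (hn : ∀ i ∈ ({6, 7, 8, 9} : Finset (Fin 10)), n0 ∈ c.A i)
    (T : Finset Lb) (hc : T.card = 6) (hA : c.Adm T) (hx : ∀ x ∈ T, n0 ∉ c.A x.2) :
    ∃ a b d e f g, T = cell a b d e f g ∧ okc forb (cell a b d e f g) := by
  obtain ⟨a, b, d, e, f, g, rfl⟩ := eq_cell T hc hA.1 (by
    intro x hxT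
    by_contra h
    refine hx x hxT (hn _ ?_)
    revert h; generalize x.2 = i; revert i; decide)
  refine ⟨a, b, d, e, f, g, rfl, fun k => ⟨?_, ?_, ?_⟩⟩
  · intro h
    obtain ⟨k1, k2, h⟩ := cellE _ _ _ _ _ _ k h
    exact c.lemS ⟨n0, h0, hn⟩ (hA.2 k1) (hA.2 k2) h
  · by_contra h
    obtain ⟨k1, k2, h⟩ := cellL _ _ _ _ _ _ k h
    exact c.lemL ⟨n0, h0, hn⟩ (hA.2 k) k1 k2 h
  · intro h
    exact hf _ h (hA.2 k)

theorem no_cert (forb : List (Finset (Fin 10))) (hf : ∀ B ∈ forb, ¬ c.N B) (l : List ℕ)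
    (hl : ∀ a b c d e f : Fin 3, okc forb (cell a b c d e f) → dS (Phi l) (cell a b c d e f) = 0)
    (h4 : c.N {6, 7, 8, 9}) : False := by
  obtain ⟨n0, h0, hn⟩ := h4
  refine core c h0 h0 (d4_pos h0).le (Phi l) (fun _ => 0) (Phi_sg l) (fun _ => rfl) (Phi_zero l)
    (Phi_one l) ?_ (fun _ _ _ _ => rfl) (fun _ _ _ => rfl) (fun _ _ _ => by simp [dS])
    (fun _ _ _ _ => rfl)
  intro T hc hA hx
  obtain ⟨a, b, d, e, f, g, rfl, hok⟩ := c.tight forb hf h0 hn T hc hA hx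
  exact hl _ _ _ _ _ _ hok

theorem fX (h4 : c.N {6, 7, 8, 9}) : c.N {0, 1, 2} ∨ c.N {3, 4, 5} := by
  by_contra h
  push Not at h
  exact c.no_cert _ (by simpa using h) _ certX h4

theorem fC1 (h4 : c.N {6, 7, 8, 9}) (h2 : c.N {0, 1, 2}) :
    c.N {0, 1, 3} ∨ c.N {0, 1, 4} ∨ c.N {0, 1, 5} := by
  by_contra h
  push Not at h
  have h' : ¬ c.N {3, 4, 5} := fun h' => c.lemS h4 h2 h' (by decide)
  exact c.no_cert _ (by simpa using ⟨h', h⟩) _ certC1 h4

theorem fC3 (h4 : c.N {6, 7, 8, 9}) (h2 : c.N {0, 1, 2}) (h3 : c.N {0, 1, 3})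
    (h5 : c.N {0, 1, 4}) : c.N {0, 1, 5} := by
  by_contra h
  have h' : ¬ c.N {3, 4, 5} := fun h' => c.lemS h4 h2 h' (by decide)
  have h'' : ¬ c.N {2, 4, 5} := fun h' => c.lemS h4 h3 h' (by decide)
  have h''' : ¬ c.N {2, 3, 5} := fun h' => c.lemS h4 h5 h' (by decide)
  exact c.no_cert _ (by simpa using ⟨h', h'', h''', h⟩) _ certC3 h4

theorem fG (h4 : c.N {6, 7, 8, 9}) (h2 : c.N {0, 1, 2}) :
    ∃ j, j ∉ ({0, 1, 2} : Finset (Fin 10)) ∧ c.N (insert j {0, 1, 2}) := by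
  by_contra h
  push Not at h
  have h' : ¬ c.N {3, 4, 5} := fun h' => c.lemS h4 h2 h' (by decide)
  obtain ⟨n0, h0, hn⟩ := h4
  obtain ⟨n1, h1, hn1, hd⟩ : ∃ n1 : V4, n1 ≠ 0 ∧ n1 ∈ c.A 0 ∧ 0 ≤ d4 n0 n1 := by
    obtain ⟨v, hv, hv0⟩ := h2
    rcases le_total 0 (d4 n0 v) with h | h
    · exact ⟨v, hv, hv0 0 (by decide), h⟩
    · refine ⟨-v, by simpa using hv, c.neg _ _ (hv0 0 (by decide)), ?_⟩
      have : d4 n0 (-v) = - d4 n0 v := by simp [d4]; ring
      linarith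
  refine core c h0 h1 hd (Phi lG) (phi {0, 1, 2}) (Phi_sg _) (phi_sg _) (Phi_zero _)
    (Phi_one _) ?_ ?_ ?_ ?_ ?_
  · intro T hc hA hx
    obtain ⟨a, b, d, e, f, g, rfl, hok⟩ := c.tight [{3, 4, 5}] (by simpa using h') h0 hn T hc hA hx
    exact certG _ _ _ _ _ _ hok
  · intro T _ hz _
    unfold phi
    rw [if_neg]
    intro e
    have : (0 : Fin 10) ∈ bset T 2 := by rw [e]; decide
    exact hz _ ((mem_bset _ _ _).1 this) rfl
  · intro T hc hs
    exact phi_one_side _ _ (by rw [hc]; decide) hs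
  · intro T _ hA
    apply dS_phi
    · intro i hi
      exact absurd (hA.1 _ _ _ hi.1 hi.2) (by decide)
    · intro j hj hs
      exact h j hj (c.N_mono (hA.2 2) hs)
  · intro T _ _ hx
    unfold phi
    rw [if_neg]
    intro e
    have : (0 : Fin 10) ∈ bset T 2 := by rw [e]; decide
    exact hx _ ((mem_bset _ _ _).1 this) hn1

/-- a nerve face with four colours -/
theorem exists_four : ∃ T : Finset (Fin 10), T.card = 4 ∧ c.N T := by
  classical
  have : ∀ i, ∃ a : V4, ∀ v ∈ c.A i, v ≠ 0 → d4 v a ≠ 0 := by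
    intro i
    by_cases h : ∃ a ∈ c.A i, a ≠ 0
    · obtain ⟨a, ha, ha0⟩ := h
      exact ⟨a, fun v hv hv0 => c.orth i _ _ hv ha hv0 ha0⟩
    · exact ⟨0, fun v hv hv0 => absurd ⟨v, hv, hv0⟩ h⟩
  choose a ha using this
  let G : Lb → Set V4 := fun l => {v | v ∈ c.A l.2 ∧
    (l.1 = 0 ∧ 0 ≤ d4 v (a l.2) ∨ l.1 = 1 ∧ d4 v (a l.2) ≤ 0)}
  have hG : ∀ l, IsClosed (G l) := by
    intro l
    have hcont : Continuous fun v : V4 => d4 v (a l.2) := by unfold d4; fun_prop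
    refine (c.closed l.2).inter (IsClosed.union ?_ ?_)
    · exact IsClosed.inter isClosed_const (isClosed_le continuous_const hcont)
    · exact IsClosed.inter isClosed_const (isClosed_le hcont continuous_const)
  have hGν : ∀ l v, -v ∈ G l → v ∈ G (sg l) := by
    rintro ⟨k, i⟩ v ⟨h1, h2⟩
    have e : d4 (-v) (a i) = - d4 v (a i) := by simp [d4]; ring
    refine ⟨by simpa [sg] using c.neg _ _ h1, ?_⟩
    simp only [e] at h2
    rcases h2 with ⟨rfl, h2⟩ | ⟨rfl, h2⟩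
    · exact Or.inr ⟨rfl, by simpa [sg] using h2⟩
    · exact Or.inl ⟨rfl, by simpa [sg] using h2⟩
  have hcov : ∀ v : V4, ∃ l, v ≠ 0 → v ∈ G l := by
    intro v
    by_cases hv : v = 0
    · exact ⟨(0, 0), fun h => absurd hv h⟩
    obtain ⟨i, hi⟩ := c.cover v hv
    rcases le_total 0 (d4 v (a i)) with h | h
    · exact ⟨(0, i), fun _ => ⟨hi, Or.inl ⟨rfl, h⟩⟩⟩
    · exact ⟨(1, i), fun _ => ⟨hi, Or.inr ⟨rfl, h⟩⟩⟩
  choose sel hsel using hcov
  obtain ⟨Pos, hPos⟩ := exists_pos V4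
  obtain ⟨Λ, hΛ, hF⟩ : ∃ Λ : V4 → Lb, (∀ v, Λ (-v) = sg (Λ v)) ∧ ∀ v, v ≠ 0 → v ∈ G (Λ v) := by
    refine ⟨fun v => if v = 0 then (2, 0) else if Pos v then sel v else sg (sel (-v)), ?_, ?_⟩
    · intro v
      by_cases hv : v = 0
      · simp [hv]; rfl
      · have hv' : -v ≠ 0 := by simpa using hv
        simp only [hv, hv', if_false, hPos v hv, neg_neg]
        by_cases h : Pos v
        · simp [h]
        · simp [h, sg_sg]
    · intro v hv
      simp only [hv, if_false]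
      split_ifs
      · exact hsel v hv
      · exact hGν _ _ (hsel _ (by simpa using hv))
  obtain ⟨ε, hε, hl⟩ := leb (isCompact_l1 4) G hG
  obtain ⟨H, hH, -, -, hKF⟩ := tower (D := 4) 3 (by norm_num) ε hε
  have hne : ∀ v : V4, ∑ i, |v i| = 1 → v ≠ 0 := by
    intro v hv e; simp [e] at hv
  have hsm : ∀ (w : List V4) (T : Finset Lb), Sm ε w → (∀ x, x ∈ T ↔ x ∈ w.map Λ) →
      T.Nonempty → ∃ p : V4, p ≠ 0 ∧ ∀ l ∈ T, p ∈ G l := by
    intro w T hw hm ⟨l0, hl0⟩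
    obtain ⟨x, hx, -⟩ := List.mem_map.1 ((hm _).1 hl0)
    obtain ⟨p, hp, hpG⟩ := hl x (hw.1 x hx)
    refine ⟨p, hne p hp, fun l hlT => ?_⟩
    obtain ⟨y, hy, rfl⟩ := List.mem_map.1 ((hm _).1 hlT)
    exact hpG _ ⟨y, hF y (hne y (hw.1 y hy)), hw.2 x hx y hy⟩
  have hdis : ∀ (p : V4) (k k' : Fin 3) (i : Fin 10), p ≠ 0 → p ∈ G (k, i) → p ∈ G (k', i) →
      k = k' := by
    rintro p k k' i hp ⟨h1, h2⟩ ⟨-, h3⟩
    have := ha i p h1 hp
    rcases h2 with ⟨h2, h2'⟩ | ⟨h2, h2'⟩ <;> rcases h3 with ⟨h3, h3'⟩ | ⟨h3, h3'⟩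
    · exact h2.trans h3.symm
    · exact absurd (le_antisymm h3' h2') this
    · exact absurd (le_antisymm h2' h3') this
    · exact h2.trans h3.symm
  have hα : ∀ w : List V4, ofSet (fun T => alt T true cols) (w.map Λ)
      + ofSet (fun T => alt T true cols) ((w.map Neg.neg).map Λ)
      = ofSet (fun T => alt T true cols + alt T false cols) (w.map Λ) := by
    intro w
    have : (w.map Neg.neg).map Λ = (w.map Λ).map sg := by
      rw [List.map_map, List.map_map]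
      congr 1
      funext M; exact hΛ M
    rw [this, ofSet_map _ _ sg_inj, ofSet_add]
    simp only [alt_sg, Bool.not_true]
  have h1 := hKF (fun w => ofSet (fun T => alt T true cols) (w.map Λ)) (by
      simp [ofSet, cols, alt]) (by
    intro w hw
    rw [hα, cob_map, cob_ofSet]
    apply ofSet_congr
    intro T _ hm
    apply dS_alt
    · intro i hi
      obtain ⟨p, hp, hpG⟩ := hsm w T hw hm ⟨_, hi.1⟩
      exact absurd (hdis p _ _ i hp (hpG _ hi.1) (hpG _ hi.2)) (by decide)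
    · intro x hx e
      obtain ⟨p, hp, hpG⟩ := hsm w T hw hm ⟨_, hx⟩
      rcases (hpG x hx).2 with ⟨h, -⟩ | ⟨h, -⟩ <;> rw [e] at h <;> exact absurd h (by decide))
  by_contra hn
  push Not at hn
  rw [hH.loc] at h1
  · exact absurd h1 (by decide)
  intro w hw
  rw [hα]
  apply ofSet_zero
  intro T hT hm
  exfalso
  have hc : T.card = 4 := by simpa [hw.2.1] using hT
  obtain ⟨p, hp, hpG⟩ := hsm w T hw.1 hm (Finset.card_pos.1 (by omega))
  refine hn (T.image Prod.snd) ?_ ⟨p, hp, fun i hi => ?_⟩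
  · rw [Finset.card_image_of_injOn, hc]
    rintro ⟨k, i⟩ hk ⟨k', j⟩ hk' e
    simp only at e
    subst e
    rw [hdis p k k' i hp (hpG _ hk) (hpG _ hk')]
  · obtain ⟨x, hx, rfl⟩ := Finset.mem_image.1 hi
    exact (hpG x hx).1

/-- relabelling of colours -/
def perm (p : Fin 10 → Fin 10) (hp : Function.Surjective p) : Col where
  A := fun i => c.A (p i)
  closed := fun _ => c.closed _
  neg := fun _ => c.neg _
  cover := fun v hv => by
    obtain ⟨i, hi⟩ := c.cover v hv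
    obtain ⟨j, rfl⟩ := hp i
    exact ⟨j, hi⟩
  orth := fun _ => c.orth _

theorem perm_N (p : Fin 10 → Fin 10) (hp : Function.Surjective p) (T : Finset (Fin 10)) :
    (c.perm p hp).N T ↔ c.N (T.image p) := by
  simp [N, perm]

end Col

end Crest.Agent.Borsuk
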