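import Crest.Agent.Borsuk.Tower
import Crest.Agent.Borsuk.Alt

set_option autoImplicit false

namespace Crest.Agent.Borsuk

abbrev V3 := Fin 3 → ℝ
abbrev V4 := Fin 4 → ℝ
abbrev V5 := Fin 5 → ℝ

def d3 (v w : V3) : ℝ := v 0 * w 0 + v 1 * w 1 + v 2 * w 2
def d4 (v w : V4) : ℝ := v 0 * w 0 + v 1 * w 1 + v 2 * w 2 + v 3 * w 3

def Bf (M : V5) (v w : V3) : ℝ :=
  M 0 * (v 0 * w 0 - v 2 * w 2) + M 1 * (v 1 * w 1 - v 2 * w 2) + M 2 * (v 0 * w 1 + v 1 * w 0)
    + M 3 * (v 0 * w 2 + v 2 * w 0) + M 4 * (v 1 * w 2 + v 2 * w 1)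

def Top (M : V5) (x : V3) : Prop := d3 x x = 1 ∧ ∀ v, Bf M v v ≤ Bf M x x * d3 v v

def cr (x y : V3) : V3 := ![x 1 * y 2 - x 2 * y 1, x 2 * y 0 - x 0 * y 2, x 0 * y 1 - x 1 * y 0]

def iota (n : V4) (v : V3) : V4 :=
  ![-n 1 * v 0 - n 2 * v 1 - n 3 * v 2, n 0 * v 0 + n 3 * v 1 - n 2 * v 2,
    -n 3 * v 0 + n 0 * v 1 + n 1 * v 2, n 2 * v 0 - n 1 * v 1 + n 0 * v 2]

theorem d4_iota (n : V4) (v w : V3) : d4 (iota n v) (iota n w) = d4 n n * d3 v w := by
  simp [d4, d3, iota]; ring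

theorem d4_iota_self (n : V4) (v : V3) : d4 (iota n v) n = 0 := by
  simp [d4, iota]; ring

theorem iota_neg (n : V4) (v : V3) : iota n (-v) = - iota n v := by
  funext i; fin_cases i <;> simp [iota] <;> ring

theorem d4_pos {n : V4} (h : n ≠ 0) : 0 < d4 n n := by
  by_contra hn
  apply h
  have h0 : n 0 = 0 := by unfold d4 at hn; nlinarith [sq_nonneg (n 0), sq_nonneg (n 1), sq_nonneg (n 2), sq_nonneg (n 3)]
  have h1 : n 1 = 0 := by unfold d4 at hn; nlinarith [sq_nonneg (n 0), sq_nonneg (n 1), sq_nonneg (n 2), sq_nonneg (n 3)]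
  have h2 : n 2 = 0 := by unfold d4 at hn; nlinarith [sq_nonneg (n 0), sq_nonneg (n 1), sq_nonneg (n 2), sq_nonneg (n 3)]
  have h3 : n 3 = 0 := by unfold d4 at hn; nlinarith [sq_nonneg (n 0), sq_nonneg (n 1), sq_nonneg (n 2), sq_nonneg (n 3)]
  funext i; fin_cases i <;> simp [h0, h1, h2, h3]

theorem iota_ne {n : V4} (h : n ≠ 0) {v : V3} (hv : d3 v v = 1) : iota n v ≠ 0 := by
  intro e
  have := d4_iota n v v
  rw [e, hv] at this
  have h2 := d4_pos h
  simp [d4] at this h2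
  linarith

theorem top_bil {M : V5} {x : V3} (h : Top M x) (v : V3) : Bf M x v = Bf M x x * d3 x v := by
  set a := Bf M x x with ha
  set β := Bf M x v - a * d3 x v with hβ
  set γ := a * d3 v v - Bf M v v with hγ
  have hγ0 : 0 ≤ γ := by have := h.2 v; linarith
  have key : ∀ t : ℝ, 2 * t * β ≤ t ^ 2 * γ := by
    intro t
    have h1 := h.2 (x + t • v)
    have e1 : Bf M (x + t • v) (x + t • v) = Bf M x x + 2 * t * Bf M x v + t ^ 2 * Bf M v v := by
      simp [Bf]; ring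
    have e2 : d3 (x + t • v) (x + t • v) = d3 x x + 2 * t * d3 x v + t ^ 2 * d3 v v := by
      simp [d3]; ring
    rw [e1, e2, h.1, ← ha] at h1
    rw [hβ, hγ]; nlinarith
  have h2 := key (β / (γ + 1))
  have h3 : β ^ 2 * (γ + 2) ≤ 0 := by
    have hp : 0 < γ + 1 := by linarith
    have : 2 * (β / (γ + 1)) * β * (γ + 1) ^ 2 ≤ (β / (γ + 1)) ^ 2 * γ * (γ + 1) ^ 2 := by gcongr
    have e1 : 2 * (β / (γ + 1)) * β * (γ + 1) ^ 2 = 2 * β ^ 2 * (γ + 1) := by field_simp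
    have e2 : (β / (γ + 1)) ^ 2 * γ * (γ + 1) ^ 2 = β ^ 2 * γ := by field_simp
    rw [e1, e2] at this; nlinarith
  have h4 : β = 0 := by
    by_contra hne
    have : 0 < β ^ 2 := by positivity
    nlinarith
  linarith

theorem top_val {M : V5} {x x' : V3} (h : Top M x) (h' : Top M x') : Bf M x x = Bf M x' x' := by
  have h1 := h.2 x'
  have h2 := h'.2 x
  rw [h'.1] at h1; rw [h.1] at h2; linarith

theorem Bf_neg (M : V5) (v w : V3) : Bf (-M) v w = - Bf M v w := by simp [Bf]; ring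

theorem top_sum_pos {M : V5} (hM : ∑ i, |M i| = 1) {x y : V3} (hx : Top M x) (hy : Top (-M) y) :
    0 < Bf M x x + Bf (-M) y y := by
  by_contra hn
  push Not at hn
  have u := hx.2
  have l : ∀ v, - Bf M v v ≤ Bf (-M) y y * d3 v v := fun v => by rw [← Bf_neg]; exact hy.2 v
  generalize Bf M x x = a at u hn
  generalize Bf (-M) y y = b at l hn
  have u0 := u ![1, 0, 0]; have u1 := u ![0, 1, 0]; have u2 := u ![0, 0, 1]
  have l0 := l ![1, 0, 0]; have l1 := l ![0, 1, 0]; have l2 := l ![0, 0, 1]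
  have u3 := u ![1, 1, 0]; have u4 := u ![1, 0, 1]; have u5 := u ![0, 1, 1]
  have l3 := l ![1, 1, 0]; have l4 := l ![1, 0, 1]; have l5 := l ![0, 1, 1]
  simp [Bf, d3] at u0 u1 u2 l0 l1 l2 u3 u4 u5 l3 l4 l5
  have h0 : M 0 = 0 := by linarith
  have h1 : M 1 = 0 := by linarith
  have h2 : M 2 = 0 := by linarith
  have h3 : M 3 = 0 := by linarith
  have h4 : M 4 = 0 := by linarith
  simp [Fin.sum_univ_five, h0, h1, h2, h3, h4] at hM

theorem top_orth {M : V5} (hM : ∑ i, |M i| = 1) {x y : V3} (hx : Top M x) (hy : Top (-M) y) :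
    d3 x y = 0 := by
  have h1 := top_bil hx y
  have h2 := top_bil hy x
  have h3 := top_sum_pos hM hx hy
  have e1 : Bf (-M) y x = - Bf M x y := by simp [Bf]; ring
  have e2 : d3 y x = d3 x y := by simp [d3]; ring
  rw [e1, e2, h1] at h2
  have : (Bf M x x + Bf (-M) y y) * d3 x y = 0 := by linarith
  exact (mul_eq_zero.1 this).resolve_left h3.ne'

theorem top_uniq {M : V5} {x x' y : V3} (hx : Top M x) (hx' : Top M x') (hy : Top (-M) y)
    (hg : Bf (-M) y y < 2 * Bf M x x) : x' = x ∨ x' = -x := by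
  have h1 := top_bil hx x'
  have h2 := top_val hx hx'
  have h3 := hy.2 (cr x x')
  have e1 : Bf (-M) (cr x x') (cr x x')
      = Bf M x x * d3 x' x' - 2 * Bf M x x' * d3 x x' + Bf M x' x' * d3 x x := by
    simp [Bf, cr, d3]; ring
  have e2 : d3 (cr x x') (cr x x') = d3 x x * d3 x' x' - d3 x x' ^ 2 := by
    simp [cr, d3]; ring
  rw [e1, e2, hx.1, hx'.1, h1, ← h2] at h3
  set t := d3 x x' with ht
  have h4 : 1 ≤ t ^ 2 := by nlinarith
  have hxx := hx.1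
  have hxx' := hx'.1
  unfold d3 at hxx hxx' ht
  rcases le_total 0 t with h | h
  · left
    have h5 : 1 ≤ t := by nlinarith
    have : (x' 0 - x 0) ^ 2 + (x' 1 - x 1) ^ 2 + (x' 2 - x 2) ^ 2 ≤ 0 := by nlinarith
    have a0 : x' 0 = x 0 := by nlinarith [sq_nonneg (x' 0 - x 0), sq_nonneg (x' 1 - x 1), sq_nonneg (x' 2 - x 2)]
    have a1 : x' 1 = x 1 := by nlinarith [sq_nonneg (x' 0 - x 0), sq_nonneg (x' 1 - x 1), sq_nonneg (x' 2 - x 2)]
    have a2 : x' 2 = x 2 := by nlinarith [sq_nonneg (x' 0 - x 0), sq_nonneg (x' 1 - x 1), sq_nonneg (x' 2 - x 2)]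
    funext i; fin_cases i <;> simp [a0, a1, a2]
  · right
    have h5 : t ≤ -1 := by nlinarith
    have : (x' 0 + x 0) ^ 2 + (x' 1 + x 1) ^ 2 + (x' 2 + x 2) ^ 2 ≤ 0 := by nlinarith
    have a0 : x' 0 = - x 0 := by nlinarith [sq_nonneg (x' 0 + x 0), sq_nonneg (x' 1 + x 1), sq_nonneg (x' 2 + x 2)]
    have a1 : x' 1 = - x 1 := by nlinarith [sq_nonneg (x' 0 + x 0), sq_nonneg (x' 1 + x 1), sq_nonneg (x' 2 + x 2)]
    have a2 : x' 2 = - x 2 := by nlinarith [sq_nonneg (x' 0 + x 0), sq_nonneg (x' 1 + x 1), sq_nonneg (x' 2 + x 2)]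
    funext i; fin_cases i <;> simp [a0, a1, a2]

theorem isCompact_S2 : IsCompact {x : V3 | d3 x x = 1} := by
  apply Metric.isCompact_of_isClosed_isBounded
  · exact isClosed_eq (by unfold d3; fun_prop) continuous_const
  · rw [isBounded_iff_forall_norm_le]
    refine ⟨1, fun x hx => ?_⟩
    rw [pi_norm_le_iff_of_nonneg zero_le_one]
    have hx' : x 0 * x 0 + x 1 * x 1 + x 2 * x 2 = 1 := hx
    intro i
    rw [Real.norm_eq_abs, abs_le]
    fin_cases i <;> simp <;> constructor <;>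
      nlinarith [sq_nonneg (x 0), sq_nonneg (x 1), sq_nonneg (x 2)]

theorem exists_top (M : V5) : ∃ x, Top M x := by
  obtain ⟨x, hx, hm⟩ := isCompact_S2.exists_isMaxOn (f := fun v => Bf M v v)
    ⟨![1, 0, 0], by simp [d3]⟩ (by unfold Bf; fun_prop)
  refine ⟨x, hx, fun v => ?_⟩
  have h0 : 0 ≤ d3 v v := by
    unfold d3; nlinarith [sq_nonneg (v 0), sq_nonneg (v 1), sq_nonneg (v 2)]
  rcases h0.eq_or_lt with h | h
  · have a0 : v 0 = 0 := by
      unfold d3 at h; nlinarith [sq_nonneg (v 0), sq_nonneg (v 1), sq_nonneg (v 2)]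
    have a1 : v 1 = 0 := by
      unfold d3 at h; nlinarith [sq_nonneg (v 0), sq_nonneg (v 1), sq_nonneg (v 2)]
    have a2 : v 2 = 0 := by
      unfold d3 at h; nlinarith [sq_nonneg (v 0), sq_nonneg (v 1), sq_nonneg (v 2)]
    simp [Bf, d3, a0, a1, a2]
  · set r := Real.sqrt (d3 v v) with hr
    have hr0 : 0 < r := Real.sqrt_pos.2 h
    have hr2 : r * r = d3 v v := Real.mul_self_sqrt h0
    have h1 : d3 (r⁻¹ • v) (r⁻¹ • v) = 1 := by
      have : d3 (r⁻¹ • v) (r⁻¹ • v) = r⁻¹ * r⁻¹ * d3 v v := by simp [d3]; ring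
      rw [this, ← hr2]; field_simp
    have h2 : Bf M (r⁻¹ • v) (r⁻¹ • v) ≤ Bf M x x := hm h1
    have h3 : Bf M v v = Bf M (r⁻¹ • v) (r⁻¹ • v) * (r * r) := by
      have : Bf M (r⁻¹ • v) (r⁻¹ • v) = r⁻¹ * r⁻¹ * Bf M v v := by simp [Bf]; ring
      rw [this]; field_simp
    rw [h3, hr2]
    gcongr

theorem cr_unit {x y : V3} (hx : d3 x x = 1) (hy : d3 y y = 1) (h : d3 x y = 0) :
    d3 (cr x y) (cr x y) = 1 := by
  have e2 : d3 (cr x y) (cr x y) = d3 x x * d3 y y - d3 x y ^ 2 := by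
    simp [cr, d3]; ring
  rw [e2, hx, hy, h]; norm_num

theorem cr_swap (x y : V3) : cr y x = - cr x y := by
  funext i; fin_cases i <;> simp [cr] <;> ring

theorem cr_neg_left (x y : V3) : cr (-x) y = - cr x y := by
  funext i; fin_cases i <;> simp [cr] <;> ring

theorem cr_neg_right (x y : V3) : cr x (-y) = - cr x y := by
  funext i; fin_cases i <;> simp [cr] <;> ring

def vec (k : Fin 3) (x y : V3) : V3 := if k = 0 then x else if k = 1 then y else cr x y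

theorem vec_unit {x y : V3} (hx : d3 x x = 1) (hy : d3 y y = 1) (h : d3 x y = 0) (k : Fin 3) :
    d3 (vec k x y) (vec k x y) = 1 := by
  unfold vec; split_ifs
  · exact hx
  · exact hy
  · exact cr_unit hx hy h

theorem vec_orth {x y : V3} (h : d3 x y = 0) (k k' : Fin 3) (hk : k ≠ k') :
    d3 (vec k x y) (vec k' x y) = 0 := by
  unfold d3 at h
  fin_cases k <;> fin_cases k' <;> simp [vec, cr, d3] at hk ⊢ <;> linarith

def Rg (k : Fin 3) (a b τ : ℝ) : Prop :=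
  if k = 0 then (1 / 4 + τ / 2) * (a + b) ≤ 2 * a - b else
  if k = 1 then (1 / 4 + τ / 2) * (a + b) ≤ 2 * b - a else
  (a + b) / 4 ≤ 2 * a - b ∧ (a + b) / 4 ≤ 2 * b - a ∧ 1 / 2 ≤ τ

theorem Rg_cover {a b τ : ℝ} (h : 0 < a + b) (h1 : τ ≤ 1) : ∃ k, Rg k a b τ := by
  by_cases h2 : (1 / 4 + τ / 2) * (a + b) ≤ 2 * a - b
  · exact ⟨0, by simpa [Rg] using h2⟩
  by_cases h3 : (1 / 4 + τ / 2) * (a + b) ≤ 2 * b - a
  · exact ⟨1, by simpa [Rg] using h3⟩
  push Not at h2 h3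
  refine ⟨2, ?_⟩
  simp only [Rg]
  rw [if_neg (by decide), if_neg (by decide)]
  refine ⟨by nlinarith, by nlinarith, by nlinarith⟩

theorem Rg_sw (k : Fin 3) (a b τ : ℝ) (h : Rg k a b τ) : Rg (sw k) b a τ := by
  fin_cases k <;> simp [Rg, sw] at h ⊢
  · linarith
  · linarith
  · exact ⟨by linarith, by linarith, h.2.2⟩

end Crest.Agent.Borsuk
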