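import Crest.Agent.Borsuk.Core

set_option autoImplicit false

namespace Crest.Agent.Borsuk

def Sm2 (ε : ℝ) (u : List (V5 × ℝ)) : Prop :=
  (∀ q ∈ u, ∑ i, |q.1 i| = 1 ∧ 0 ≤ q.2 ∧ q.2 ≤ 1) ∧ ∀ q ∈ u, ∀ q' ∈ u, dist q q' ≤ ε

theorem Sm2_map {ε : ℝ} (_hε : 0 < ε) {w : List V5} (hw : Sm ε w) {τ : ℝ} (h0 : 0 ≤ τ) (h1 : τ ≤ 1) :
    Sm2 ε (w.map fun M => (M, τ)) := by
  constructor
  · intro q hq
    obtain ⟨M, hM, rfl⟩ := List.mem_map.1 hq
    exact ⟨hw.1 M hM, h0, h1⟩
  · intro q hq q' hq'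
    obtain ⟨M, hM, rfl⟩ := List.mem_map.1 hq
    obtain ⟨M', hM', rfl⟩ := List.mem_map.1 hq'
    rw [Prod.dist_eq]
    simp [hw.2 M hM M' hM']

theorem core (c : Col) {n0 n1 : V4} (h0 : n0 ≠ 0) (h1 : n1 ≠ 0) (hd : 0 ≤ d4 n0 n1)
    (Φ Ψ : Finset Lb → Z2)
    (hΦσ : ∀ T, Φ (T.image sg) = Φ T) (hΨσ : ∀ T, Ψ (T.image sg) = Ψ T)
    (hΦ0 : ∀ T, (∀ x ∈ T, x.1 ≠ 2) → Φ T = alt2 T)
    (hΦ1 : ∀ T, T.card = 5 → (bset T 0 = ∅ ∨ bset T 1 = ∅) → Φ T = 0)
    (hdΦ : ∀ T, T.card = 6 → c.Adm T → (∀ x ∈ T, n0 ∉ c.A x.2) → dS Φ T = Ψ T)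
    (hΨ0 : ∀ T, T.card = 6 → (∀ x ∈ T, x.1 ≠ 2) → c.Adm T → Ψ T = 0)
    (hΨ1 : ∀ T, T.card = 6 → (bset T 0 = ∅ ∨ bset T 1 = ∅) → Ψ T = 0)
    (hΨd : ∀ T, T.card = 7 → c.Adm T → dS Ψ T = 0)
    (hΨe : ∀ T, T.card = 6 → c.Adm T → (∀ x ∈ T, n1 ∉ c.A x.2) → Ψ T = 0) : False := by
  obtain ⟨Λ, ε, hε, hΛ, hF, hadm⟩ := exists_lab_eps c h0 h1 hd
  obtain ⟨H, hH, -, hsym, hKF⟩ := tower (D := 5) 4 (by norm_num) ε hε
  replace hsym := hsym (by norm_num)
  obtain ⟨L, hL⟩ := exists_nat_gt (1 / ε)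
  have hL0 : (0 : ℝ) < L := lt_trans (by positivity) hL
  have hLε : 1 / (L : ℝ) ≤ ε := by
    rw [div_le_iff₀ hL0]; rw [div_lt_iff₀ hε] at hL; linarith
  set t : ℕ → ℝ := fun j => (j : ℝ) / L with ht
  have ht0 : t 0 = 0 := by simp [ht]
  have htL : t L = 1 := by simp [ht, div_self hL0.ne']
  have htn : ∀ j, 0 ≤ t j := fun j => by simp only [ht]; positivity
  have ht1 : ∀ j ≤ L, t j ≤ 1 := fun j hj => by
    simp only [ht]; rw [div_le_one hL0]; exact_mod_cast hj
  have htd : ∀ j, |t j - t (j + 1)| ≤ ε := fun j => by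
    have : t j - t (j + 1) = - (1 / L) := by simp only [ht]; push_cast; ring
    rw [this, abs_neg, abs_of_pos (by positivity)]; exact hLε
  set f : ℕ → V5 → V5 × ℝ := fun j M => (M, t j) with hf
  set g : ℝ → V5 × ℝ → Lb := fun s q => Λ (q.1, q.2, s) with hg
  set ν2 : V5 × ℝ → V5 × ℝ := fun q => (-q.1, q.2) with hν2
  have hgν : ∀ s q, g s (ν2 q) = sg (g s q) := fun s q => hΛ (q.1, q.2, s)
  have hC : IsChain (tel H f L) (fun u => u.length = 6 ∧ Sm2 ε u) := by
    refine (hH.tel f L).mono ?_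
    rintro u ⟨j, hj, w, hw, hl, hx⟩
    refine ⟨by rw [hl, hw.2.1], ?_, ?_⟩
    · intro q hq
      obtain ⟨M, hM, rfl | rfl⟩ := hx q hq
      · exact ⟨hw.1.1 M hM, htn _, ht1 _ (by omega)⟩
      · exact ⟨hw.1.1 M hM, htn _, ht1 _ (by omega)⟩
    · intro q hq q' hq'
      have := htd j
      obtain ⟨M, hM, rfl | rfl⟩ := hx q hq <;> obtain ⟨M', hM', rfl | rfl⟩ := hx q' hq' <;>
        rw [Prod.dist_eq] <;>
        simp only [hf, max_le_iff, hw.1.2 M hM M' hM', true_and, Real.dist_eq]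
      · simp [hε.le]
      · exact this
      · rw [abs_sub_comm]; exact this
      · simp [hε.le]
  have hbd : ∀ χ : List (V5 × ℝ) → Z2, (∀ u, χ (u.map ν2) = χ u) →
      tel H f L (cob χ) = H (fun w => χ (w.map fun M => (M, 0)))
        + H (fun w => χ (w.map fun M => (M, 1))) := by
    intro χ hχ
    rw [hH.tel_cob f L χ]
    · simp only [hf, ht0, htL]
    · intro j _
      apply hsym
      intro w
      rw [pri_map_left]
      have := pri_map_right (f j) (f (j + 1)) ν2 χ w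
      simp only [hχ] at this
      exact this
  have hsmall : ∀ (u : List (V5 × ℝ)) (s s' : ℝ) (T : Finset Lb), Sm2 ε u → 0 < u.length →
      0 ≤ s → s ≤ 1 → 0 ≤ s' → s' ≤ 1 → |s - s'| ≤ ε →
      (∀ l ∈ T, ∃ q ∈ u, l = g s q ∨ l = g s' q) →
      c.Adm T ∧ ((∀ q ∈ u, q.2 = 1) → bset T 0 = ∅ ∨ bset T 1 = ∅) := by
    intro u s s' T hu hl hs0 hs1 hs0' hs1' hss hT
    obtain ⟨q0, hq0⟩ := List.exists_mem_of_length_pos hl
    have := hadm T (q0.1, q0.2, s) ⟨(hu.1 q0 hq0).1, (hu.1 q0 hq0).2, hs0, hs1⟩ (by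
      intro l hlT
      obtain ⟨q, hq, h⟩ := hT l hlT
      have hdq := hu.2 q0 hq0 q hq
      rw [Prod.dist_eq, max_le_iff] at hdq
      rcases h with rfl | rfl
      · refine ⟨(q.1, q.2, s), ⟨(hu.1 q hq).1, (hu.1 q hq).2, hs0, hs1⟩, ?_, rfl⟩
        simp only [Prod.dist_eq, max_le_iff, hdq, true_and]; simp [hε.le]
      · refine ⟨(q.1, q.2, s'), ⟨(hu.1 q hq).1, (hu.1 q hq).2, hs0', hs1'⟩, ?_, rfl⟩
        simp only [Prod.dist_eq, max_le_iff, hdq, true_and]; exact hss)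
    exact ⟨this.1, fun h => this.2 (h q0 hq0)⟩
  have hgF : ∀ (q : V5 × ℝ) (s : ℝ), (∑ i, |q.1 i| = 1 ∧ 0 ≤ q.2 ∧ q.2 ≤ 1) → 0 ≤ s → s ≤ 1 →
      (q.1, q.2, s) ∈ FF c n0 n1 (g s q) := fun q s hq hs0 hs1 =>
    hF (q.1, q.2, s) ⟨hq.1, hq.2, hs0, hs1⟩
  have hinv : ∀ (Θ : Finset Lb → Z2), (∀ T, Θ (T.image sg) = Θ T) → ∀ u : List Lb,
      ofSet Θ (u.map sg) = ofSet Θ u := by
    intro Θ hΘ u
    rw [ofSet_map _ _ sg_inj]; simp only [hΘ]
  -- step A
  have stepA : tel H f L (fun u => ofSet Ψ (u.map (g 0))) = 1 := by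
    have e1 : tel H f L (fun u => ofSet Ψ (u.map (g 0)))
        = tel H f L (cob fun u => ofSet Φ (u.map (g 0))) := by
      apply hC.congr
      intro u hu
      rw [cob_map, cob_ofSet]
      apply ofSet_congr
      intro T hT hm
      have hm' : ∀ l ∈ T, ∃ q ∈ u, l = g 0 q := fun l hl => by
        obtain ⟨q, hq, e⟩ := List.mem_map.1 ((hm l).1 hl); exact ⟨q, hq, e.symm⟩
      symm
      apply hdΦ T (by simpa [hu.1] using hT)
      · refine (hsmall u 0 0 T hu.2 (by simp [hu.1]) le_rfl zero_le_one le_rfl zero_le_one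
          (by simp [hε.le]) fun l hl => ?_).1
        obtain ⟨q, hq, e⟩ := hm' l hl
        exact ⟨q, hq, Or.inl e⟩
      · intro l hl
        obtain ⟨q, hq, rfl⟩ := hm' l hl
        have := FF_avoid c h0 h1 hd (hgF q 0 (hu.2.1 q hq) le_rfl zero_le_one)
        simpa [nn] using this
    rw [e1, hbd]
    swap
    · intro u
      rw [List.map_map]
      have : g 0 ∘ ν2 = sg ∘ g 0 := by funext q; exact hgν 0 q
      rw [this, ← List.map_map, hinv Φ hΦσ]
    have e2 : H (fun w => ofSet Φ ((w.map fun M => (M, (1 : ℝ))).map (g 0))) = 0 := by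
      apply hH.loc
      intro w hw
      apply ofSet_zero
      intro T hT hm
      apply hΦ1 T (by simpa [hw.2.1] using hT)
      refine (hsmall _ 0 0 T (Sm2_map hε hw.1 zero_le_one le_rfl) (by simp [hw.2.1]) le_rfl
        zero_le_one le_rfl zero_le_one (by simp [hε.le]) fun l hl => ?_).2 (by simp)
      obtain ⟨q, hq, e⟩ := List.mem_map.1 ((hm l).1 hl)
      exact ⟨q, hq, Or.inl e.symm⟩
    rw [e2, add_zero]
    set g0 : V5 → Lb := fun M => g 0 (M, 0) with hg0
    have hg0ν : ∀ w : List V5, (w.map Neg.neg).map g0 = (w.map g0).map sg := by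
      intro w
      rw [List.map_map, List.map_map]
      congr 1
      funext M; exact hgν 0 (M, 0)
    have hz : ∀ w : List V5, Sm ε w → ∀ l ∈ w.map g0, l.1 ≠ 2 := by
      intro w hw l hl
      obtain ⟨M, hM, rfl⟩ := List.mem_map.1 hl
      exact FF_tau0 c (hgF (M, 0) 0 ⟨hw.1 M hM, le_rfl, zero_le_one⟩ le_rfl zero_le_one) rfl
    have hα : ∀ w : List V5, ofSet (fun T => alt T true cols) (w.map g0)
        + ofSet (fun T => alt T true cols) ((w.map Neg.neg).map g0)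
        = ofSet (fun T => alt T true cols + alt T false cols) (w.map g0) := by
      intro w
      rw [hg0ν, ofSet_map _ _ sg_inj, ofSet_add]
      simp only [alt_sg, Bool.not_true]
    rw [← hKF (fun w => ofSet (fun T => alt T true cols) (w.map g0)) (by
      simp [ofSet, cols, alt])]
    · apply hH.congr
      intro w hw
      rw [hα, List.map_map]
      apply ofSet_congr
      intro T _ hm
      exact hΦ0 T fun x hx => hz w hw.1 x ((hm x).1 hx)
    · intro w hw
      rw [hα, cob_map, cob_ofSet]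
      apply ofSet_congr
      intro T _ hm
      apply dS_alt T _ fun x hx => hz w hw x ((hm x).1 hx)
      intro i hi
      have hlen : 0 < (w.map fun M => (M, (0 : ℝ))).length := by
        have := List.length_pos_of_mem ((hm _).1 hi.1)
        simpa using this
      have := (hsmall _ 0 0 T (Sm2_map hε hw le_rfl zero_le_one) hlen le_rfl
        zero_le_one le_rfl zero_le_one (by simp [hε.le]) fun l hl => by
          obtain ⟨M, hM, e⟩ := List.mem_map.1 ((hm l).1 hl)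
          exact ⟨(M, 0), List.mem_map.2 ⟨M, hM, rfl⟩, Or.inl e.symm⟩).1
      exact absurd (this.1 _ _ _ hi.1 hi.2) (by decide)
  -- step C
  have stepC : ∀ m < L, tel H f L (fun u => ofSet Ψ (u.map (g (t m))))
      = tel H f L (fun u => ofSet Ψ (u.map (g (t (m + 1))))) := by
    intro m hm
    apply z2_eq_of_add
    rw [← hC.add]
    have e : (fun u : List (V5 × ℝ) => ofSet Ψ (u.map (g (t m))) + ofSet Ψ (u.map (g (t (m + 1)))))
        = fun u => pri (g (t m)) (g (t (m + 1))) (cob (ofSet Ψ)) u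
          + cob (pri (g (t m)) (g (t (m + 1))) (ofSet Ψ)) u := by
      funext u; rw [pri_cob]
    have hs := fun u T hu hl => hsmall u (t m) (t (m + 1)) T hu hl (htn _) (ht1 _ (by omega))
      (htn _) (ht1 _ (by omega)) (htd m)
    rw [e, hC.add, hbd, hC.loc, hH.loc, hH.loc]
    · simp
    · intro w hw
      apply pri_zero
      intro u hu hx
      apply ofSet_zero
      intro T hT hm'
      apply hΨ1 T (by rw [hT, hu]; simp [hw.2.1])
      exact (hs _ T (Sm2_map hε hw.1 zero_le_one le_rfl) (by simp [hw.2.1])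
        fun l hl => hx l ((hm' l).1 hl)).2 (by simp)
    · intro w hw
      apply pri_zero
      intro u hu hx
      apply ofSet_zero
      intro T hT hm'
      have hsm := Sm2_map hε hw.1 le_rfl zero_le_one
      apply hΨ0 T (by rw [hT, hu]; simp [hw.2.1])
      · intro l hl
        obtain ⟨q, hq, h⟩ := hx l ((hm' l).1 hl)
        have hq2 : q.2 = 0 := by
          obtain ⟨M, -, rfl⟩ := List.mem_map.1 hq; rfl
        rcases h with rfl | rfl
        · exact FF_tau0 c (hgF q _ (hsm.1 q hq) (htn _) (ht1 _ (by omega))) hq2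
        · exact FF_tau0 c (hgF q _ (hsm.1 q hq) (htn _) (ht1 _ (by omega))) hq2
      · exact (hs _ T hsm (by simp [hw.2.1]) fun l hl => hx l ((hm' l).1 hl)).1
    · intro w hw
      apply pri_zero
      intro u hu hx
      rw [cob_ofSet]
      apply ofSet_zero
      intro T hT hm'
      apply hΨd T (by rw [hT, hu, hw.1])
      exact (hs _ T hw.2 (by simp [hw.1]) fun l hl => hx l ((hm' l).1 hl)).1
    · intro u
      rw [pri_map_left]
      have := pri_map_right (g (t m)) (g (t (m + 1))) sg (ofSet Ψ) u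
      simp only [hinv Ψ hΨσ] at this
      simp only [hgν]
      exact this
  have stepC' : ∀ m ≤ L, tel H f L (fun u => ofSet Ψ (u.map (g (t m)))) = 1 := by
    intro m hm
    induction m with
    | zero => rw [ht0]; exact stepA
    | succ m ih => rw [← stepC m (by omega)]; exact ih (by omega)
  have stepD : tel H f L (fun u => ofSet Ψ (u.map (g 1))) = 0 := by
    apply hC.loc
    intro u hu
    apply ofSet_zero
    intro T hT hm
    have hm' : ∀ l ∈ T, ∃ q ∈ u, l = g 1 q := fun l hl => by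
      obtain ⟨q, hq, e⟩ := List.mem_map.1 ((hm l).1 hl); exact ⟨q, hq, e.symm⟩
    apply hΨe T (by simpa [hu.1] using hT)
    · refine (hsmall u 1 1 T hu.2 (by simp [hu.1]) zero_le_one le_rfl zero_le_one le_rfl
        (by simp [hε.le]) fun l hl => ?_).1
      obtain ⟨q, hq, e⟩ := hm' l hl
      exact ⟨q, hq, Or.inl e⟩
    · intro l hl
      obtain ⟨q, hq, rfl⟩ := hm' l hl
      have := FF_avoid c h0 h1 hd (hgF q 1 (hu.2.1 q hq) zero_le_one le_rfl)
      simpa [nn] using this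
  have := stepC' L le_rfl
  rw [htL, stepD] at this
  exact absurd this (by decide)

end Crest.Agent.Borsuk
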