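import Crest.Agent.Borsuk.Facts
import Crest.Agent.Borsuk.Lrat
import Crest.Agent.Borsuk.Wit

set_option autoImplicit false

namespace Crest.Agent.Borsuk

def sOf (m : ℕ) : Finset (Fin 10) := Finset.univ.filter (fun i => m.testBit i.val)

def mkm : List (Fin 10) → ℕ
  | [] => 0
  | i :: l => 2 ^ i.val ||| mkm l

theorem sOf_mk (l : List (Fin 10)) : sOf (mkm l) = l.toFinset := by
  ext i
  simp only [sOf, Finset.mem_filter, Finset.mem_univ, true_and, List.mem_toFinset]
  induction l with
  | nil => simp [mkm]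
  | cons a l ih =>
    simp only [mkm, Nat.testBit_or, Bool.or_eq_true, ih, List.mem_cons, Nat.testBit_two_pow,
      decide_eq_true_eq, Fin.ext_iff]
    constructor
    · rintro (h | h)
      · exact Or.inl h.symm
      · exact Or.inr h
    · rintro (h | h)
      · exact Or.inl h.symm
      · exact Or.inr h

def maskOf (n : ℕ) : ℕ := (table >>> (10 * n)) % 1024

def tmpl : ℕ → List (Bool × List (Fin 10))
  | 0 => [(false, [0, 1, 2, 3]), (true, [0, 1, 2])]
  | 1 => [(false, [0, 1, 2, 3]), (false, [4, 5, 6, 7])]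
  | 2 => [(false, [6, 7, 8, 9]), (false, [0, 1, 2]), (false, [3, 4, 5])]
  | 3 => [(false, [6, 7, 8, 9]), (true, [0, 1, 2]), (true, [3, 4, 5])]
  | 4 => [(false, [6, 7, 8, 9]), (false, [0, 1, 2]), (true, [0, 1, 3]), (true, [0, 1, 4]),
      (true, [0, 1, 5])]
  | 5 => [(false, [6, 7, 8, 9]), (false, [0, 1, 2]), (false, [0, 1, 3]), (false, [0, 1, 4]),
      (true, [0, 1, 5])]
  | _ => [(false, [6, 7, 8, 9]), (false, [0, 1, 2]), (true, [3, 0, 1, 2]), (true, [4, 0, 1, 2]),
      (true, [5, 0, 1, 2]), (true, [6, 0, 1, 2]), (true, [7, 0, 1, 2]), (true, [8, 0, 1, 2]),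
      (true, [9, 0, 1, 2])]

def Col.lit (c : Col) (s : Bool) (T : Finset (Fin 10)) : Prop := if s then c.N T else ¬ c.N T

theorem Col.tmpl_sound (c : Col) (k : ℕ) : ∃ x ∈ tmpl k, c.lit x.1 x.2.toFinset := by
  by_contra h
  push Not at h
  match k with
  | 0 =>
    simp only [tmpl, Col.lit, List.forall_mem_cons] at h
    simp only [List.toFinset_cons, List.toFinset_nil, insert_empty_eq] at h
    simp only [Bool.false_eq_true, if_false, if_true, not_not] at h
    exact h.2.1 (c.N_mono h.1 (by decide))
  | 1 =>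
    simp only [tmpl, Col.lit, List.forall_mem_cons] at h
    simp only [List.toFinset_cons, List.toFinset_nil, insert_empty_eq] at h
    simp only [Bool.false_eq_true, if_false, if_true, not_not] at h
    exact c.lemL h.1 h.2.1 8 9 (by decide)
  | 2 =>
    simp only [tmpl, Col.lit, List.forall_mem_cons] at h
    simp only [List.toFinset_cons, List.toFinset_nil, insert_empty_eq] at h
    simp only [Bool.false_eq_true, if_false, if_true, not_not] at h
    exact c.lemS h.1 h.2.1 h.2.2.1 (by decide)
  | 3 =>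
    simp only [tmpl, Col.lit, List.forall_mem_cons] at h
    simp only [List.toFinset_cons, List.toFinset_nil, insert_empty_eq] at h
    simp only [Bool.false_eq_true, if_false, if_true, not_not] at h
    rcases c.fX h.1 with h' | h'
    · exact h.2.1 h'
    · exact h.2.2.1 h'
  | 4 =>
    simp only [tmpl, Col.lit, List.forall_mem_cons] at h
    simp only [List.toFinset_cons, List.toFinset_nil, insert_empty_eq] at h
    simp only [Bool.false_eq_true, if_false, if_true, not_not] at h
    rcases c.fC1 h.1 h.2.1 with h' | h' | h'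
    · exact h.2.2.1 h'
    · exact h.2.2.2.1 h'
    · exact h.2.2.2.2.1 h'
  | 5 =>
    simp only [tmpl, Col.lit, List.forall_mem_cons] at h
    simp only [List.toFinset_cons, List.toFinset_nil, insert_empty_eq] at h
    simp only [Bool.false_eq_true, if_false, if_true, not_not] at h
    exact h.2.2.2.2.1 (c.fC3 h.1 h.2.1 h.2.2.1 h.2.2.2.1)
  | k + 6 =>
    simp only [tmpl, Col.lit, List.forall_mem_cons] at h
    simp only [List.toFinset_cons, List.toFinset_nil, insert_empty_eq] at h
    simp only [Bool.false_eq_true, if_false, if_true, not_not] at h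
    obtain ⟨j, hj, hN⟩ := c.fG h.1 h.2.1
    obtain ⟨-, -, h3, h4, h5, h6, h7, h8, h9, -⟩ := h
    fin_cases j
    · exact hj (by decide)
    · exact hj (by decide)
    · exact hj (by decide)
    · exact h3 hN
    · exact h4 hN
    · exact h5 hN
    · exact h6 hN
    · exact h7 hN
    · exact h8 hN
    · exact h9 hN

def hasLit (cl : List Sat.Literal) (s : Bool) (m : ℕ) : Bool :=
  cl.any fun l => match l with
    | Sat.Literal.pos n => s && Nat.beq (maskOf n) m
    | Sat.Literal.neg n => !s && Nat.beq (maskOf n) m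

def pOf (w : ℕ) (i : Fin 10) : Fin 10 := Fin.ofNat 10 (w / 10 ^ (i.val + 1))

def chk (cl : List Sat.Literal) (w : ℕ) : Bool :=
  if w % 10 = 7 then hasLit cl true (mkm [0, 1, 2, 3]) else
  if w % 10 = 8 then hasLit cl true (mkm [0, 4, 5, 6]) else
  Nat.beq (mkm (cols.map (pOf w))) 1023 &&
    (tmpl (w % 10)).all fun x => hasLit cl x.1 (mkm (x.2.map (pOf w)))

def chkAll : List (List Sat.Literal) → List ℕ → Bool
  | [], _ => true
  | _ :: _, [] => false
  | c :: cs, w :: ws => chk c w && chkAll cs ws

theorem chkAll_sound (cs : List (List Sat.Literal)) (ws : List ℕ) (h : chkAll cs ws = true) :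
    ∀ c ∈ cs, ∃ w, chk c w = true := by
  induction cs generalizing ws with
  | nil => simp
  | cons c cs ih =>
    cases ws with
    | nil => simp [chkAll] at h
    | cons w ws =>
      simp only [chkAll, Bool.and_eq_true] at h
      intro c' hc'
      rcases List.mem_cons.1 hc' with rfl | hc'
      · exact ⟨w, h.1⟩
      · exact ih ws h.2 c' hc'

theorem chk_ok : chkAll satctx wit = true := by decide +kernel

theorem satisfies_of (v : Sat.Valuation) (cl : List Sat.Literal) (h : ∃ l ∈ cl, ¬ v.neg l) :
    v.satisfies cl := by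
  induction cl with
  | nil => simp at h
  | cons a cl ih =>
    intro ha
    obtain ⟨l, hl, hn⟩ := h
    rcases List.mem_cons.1 hl with rfl | hl
    · exact absurd ha hn
    · exact ih ⟨l, hl, hn⟩

theorem Col.hasLit_sound (c : Col) (cl : List Sat.Literal) (s : Bool) (l : List (Fin 10))
    (h : hasLit cl s (mkm l) = true) (hl : c.lit s l.toFinset) :
    Sat.Valuation.satisfies (fun n => c.N (sOf (maskOf n))) cl := by
  apply satisfies_of
  obtain ⟨x, hx, h⟩ := List.any_eq_true.1 h
  refine ⟨x, hx, ?_⟩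
  cases x with
  | pos n =>
    simp only [Bool.and_eq_true, Nat.beq_eq] at h
    simp only [Sat.Valuation.neg, h.2, sOf_mk, not_not]
    simpa [Col.lit, h.1] using hl
  | neg n =>
    simp only [Bool.and_eq_true, Nat.beq_eq, Bool.not_eq_true'] at h
    simp only [Sat.Valuation.neg, h.2, sOf_mk]
    simpa [Col.lit, h.1] using hl

theorem Col.sat_false (c : Col) (h1 : c.N {0, 1, 2, 3}) (h2 : c.N {0, 4, 5, 6}) : False := by
  refine satproof (fun n => c.N (sOf (maskOf n))) ⟨fun cl hcl => ?_⟩
  obtain ⟨w, hw⟩ := chkAll_sound _ _ chk_ok cl hcl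
  unfold chk at hw
  split_ifs at hw
  · exact c.hasLit_sound cl true _ hw (by simpa [Col.lit] using h1)
  · exact c.hasLit_sound cl true _ hw (by simpa [Col.lit] using h2)
  · simp only [Bool.and_eq_true, Nat.beq_eq, List.all_eq_true] at hw
    have hs : Function.Surjective (pOf w) := by
      intro j
      have : j ∈ sOf (mkm (cols.map (pOf w))) := by
        rw [hw.1]; revert j; decide
      rw [sOf_mk] at this
      obtain ⟨i, -, hi⟩ := List.mem_map.1 (List.mem_toFinset.1 this)
      exact ⟨i, hi⟩
    obtain ⟨x, hx, hl⟩ := (c.perm _ hs).tmpl_sound (w % 10)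
    refine c.hasLit_sound cl x.1 _ (hw.2 x hx) ?_
    have e : (x.2.map (pOf w)).toFinset = x.2.toFinset.image (pOf w) := by ext; simp
    rw [e]
    simpa only [Col.lit, Col.perm_N] using hl

theorem Col.false_of_std (c : Col) (h4 : c.N {6, 7, 8, 9}) (h2 : c.N {0, 1, 2}) : False := by
  obtain ⟨j, hj, hN⟩ := c.fG h4 h2
  have key : ∀ p : Fin 10 → Fin 10, Function.Surjective p →
      ({0, 1, 2, 3} : Finset (Fin 10)).image p = {6, 7, 8, 9} →
      ({0, 4, 5, 6} : Finset (Fin 10)).image p = insert j {0, 1, 2} → False := by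
    intro p hp e1 e2
    exact (c.perm p hp).sat_false (by rw [Col.perm_N, e1]; exact h4)
      (by rw [Col.perm_N, e2]; exact hN)
  fin_cases j
  · exact hj (by decide)
  · exact hj (by decide)
  · exact hj (by decide)
  · exact c.lemL h4 hN 4 5 (by decide)
  · exact c.lemL h4 hN 3 5 (by decide)
  · exact c.lemL h4 hN 3 4 (by decide)
  · exact key ![6, 7, 8, 9, 0, 1, 2, 3, 4, 5] (by decide) (by decide) (by decide)
  · exact key ![7, 6, 8, 9, 0, 1, 2, 3, 4, 5] (by decide) (by decide) (by decide)
  · exact key ![8, 7, 6, 9, 0, 1, 2, 3, 4, 5] (by decide) (by decide) (by decide)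
  · exact key ![9, 7, 8, 6, 0, 1, 2, 3, 4, 5] (by decide) (by decide) (by decide)

theorem Col.false (c : Col) : False := by
  obtain ⟨T, hT, hN⟩ := c.exists_four
  have hS : ({6, 7, 8, 9} : Finset (Fin 10)).card = T.card := by rw [hT]; decide
  let e := Finset.equivOfCardEq hS
  obtain ⟨σ, hσ⟩ := Equiv.Perm.exists_extending_pair
    (f := (Subtype.val : ({6, 7, 8, 9} : Finset (Fin 10)) → Fin 10))
    (g := fun x => (e x).val) Subtype.val_injective
    (Subtype.val_injective.comp e.injective)
  have h4 : (c.perm σ σ.surjective).N {6, 7, 8, 9} := by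
    rw [Col.perm_N]
    refine c.N_mono hN fun i hi => ?_
    obtain ⟨x, hx, rfl⟩ := Finset.mem_image.1 hi
    rw [hσ ⟨x, hx⟩]
    exact (e ⟨x, hx⟩).2
  generalize c.perm σ σ.surjective = c' at h4
  rcases c'.fX h4 with h | h
  · exact c'.false_of_std h4 h
  · refine (c'.perm ![3, 4, 5, 0, 1, 2, 6, 7, 8, 9] (by decide)).false_of_std ?_ ?_
    · rw [Col.perm_N]; exact c'.N_mono h4 (by decide)
    · rw [Col.perm_N]; exact c'.N_mono h (by decide)

end Crest.Agent.Borsuk
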