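import Crest.Agent.Borsuk.Words

set_option autoImplicit false

namespace Crest.Agent.Borsuk

open Finset

variable {D : ℕ}

/-- small words on the `ℓ¹` sphere -/
def Sm (ε : ℝ) (w : List (Fin D → ℝ)) : Prop :=
  (∀ x ∈ w, ∑ i, |x i| = 1) ∧ ∀ x ∈ w, ∀ y ∈ w, dist x y ≤ ε

theorem Sm.mono {ε ε' : ℝ} (h : ε ≤ ε') {w : List (Fin D → ℝ)} (hw : Sm ε w) : Sm ε' w :=
  ⟨hw.1, fun x hx y hy => (hw.2 x hx y hy).trans h⟩

theorem Sm.neg {ε : ℝ} {w : List (Fin D → ℝ)} (hw : Sm ε w) : Sm ε (w.map Neg.neg) := by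
  constructor
  · intro x hx
    obtain ⟨y, hy, rfl⟩ := List.mem_map.1 hx
    simpa using hw.1 y hy
  · intro x hx y hy
    obtain ⟨x', hx', rfl⟩ := List.mem_map.1 hx
    obtain ⟨y', hy', rfl⟩ := List.mem_map.1 hy
    simpa using hw.2 x' hx' y' hy'

theorem norm_le_one_of_sum {x : Fin D → ℝ} (h : ∑ i, |x i| = 1) : ‖x‖ ≤ 1 := by
  rw [pi_norm_le_iff_of_nonneg zero_le_one]
  intro i
  rw [← h, Real.norm_eq_abs]
  exact Finset.single_le_sum (f := fun i => |x i|) (fun _ _ => abs_nonneg _) (Finset.mem_univ i)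

def Sup (ε : ℝ) (k : ℕ) (w : List (Fin D → ℝ)) : Prop :=
  Sm ε w ∧ w.length = k + 1 ∧ ∀ x ∈ w, ∀ i : Fin D, k < i.val → x i = 0

theorem tower (k : ℕ) (hk : k < D) : ∀ ε : ℝ, 0 < ε →
    ∃ H : (List (Fin D → ℝ) → Z2) → Z2, IsChain H (Sup ε k) ∧
      (∀ χ, H (cob χ) + H (fun w => cob χ (w.map Neg.neg)) = 0) ∧
      (0 < k → ∀ φ : List (Fin D → ℝ) → Z2, (∀ w, φ (w.map Neg.neg) = φ w) → H (cob φ) = 0) ∧
      (∀ α : List (Fin D → ℝ) → Z2, α [] = 1 →
        (∀ w, Sm ε w → cob α w = α w + α (w.map Neg.neg)) →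
        H (fun w => α w + α (w.map Neg.neg)) = 1) := by
  induction k with
  | zero =>
    intro ε hε
    have hs : Sm ε [(Pi.single ⟨0, hk⟩ 1 : Fin D → ℝ)] := by
      constructor
      · intro x hx
        rw [List.mem_singleton.1 hx, Finset.sum_eq_single ⟨0, hk⟩]
        · simp
        · intro b _ hb; simp [hb]
        · simp
      · intro x hx y hy
        rw [List.mem_singleton.1 hx, List.mem_singleton.1 hy]; simp [hε.le]
    refine ⟨fun φ => φ [Pi.single ⟨0, hk⟩ 1], ⟨fun _ _ => rfl, fun φ h => h _ ⟨hs, rfl, ?_⟩⟩,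
      ?_, fun h => absurd h (lt_irrefl _), ?_⟩
    · intro x hx i hi
      rw [List.mem_singleton.1 hx, Pi.single_eq_of_ne]
      intro e; rw [e] at hi; simp at hi
    · intro χ; simp [cob, z2_self]
    · intro α h0 h
      show α _ + α _ = 1
      rw [← h _ hs]; simp [cob, h0]
  | succ k ih =>
    intro ε hε
    obtain ⟨H, hH, hb, -, hKF⟩ := ih (by omega) (ε / 2) (by positivity)
    obtain ⟨L, hL⟩ := exists_nat_gt (4 / ε)
    have hL0 : (0 : ℝ) < L := lt_trans (by positivity) hL
    set e : Fin D → ℝ := Pi.single ⟨k + 1, hk⟩ 1 with he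
    set S : (List (Fin D → ℝ) → Z2) → Z2 :=
      fun φ => H φ + H (fun w => φ (w.map Neg.neg)) with hS
    have hSc : IsChain S (Sup (ε / 2) k) := by
      constructor
      · intro φ ψ
        simp only [hS]
        rw [hH.add, hH.add (fun w => φ (w.map Neg.neg)) (fun w => ψ (w.map Neg.neg))]; ring
      · intro φ hφ
        simp only [hS]
        rw [hH.loc φ hφ, hH.loc, add_zero]
        intro w hw
        refine hφ _ ⟨hw.1.neg, by simpa using hw.2.1, ?_⟩
        intro x hx i hi
        obtain ⟨y, hy, rfl⟩ := List.mem_map.1 hx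
        simp [hw.2.2 y hy i hi]
    set g : ℕ → (Fin D → ℝ) → (Fin D → ℝ) :=
      fun j x => (1 - (j : ℝ) / L) • x + ((j : ℝ) / L) • e with hg
    have hbd : ∀ φ, tel S g L (cob φ) = S φ := by
      intro φ
      rw [hSc.tel_cob g L φ (fun j _ => hb _)]
      have h0 : (fun w : List (Fin D → ℝ) => φ (w.map (g 0))) = φ := by
        funext w
        have : g 0 = id := by funext x; simp [hg]
        rw [this, List.map_id]
      have h1 : S (fun w : List (Fin D → ℝ) => φ (w.map (g L))) = 0 := by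
        have : g L = fun _ => e := by funext x; simp [hg, div_self hL0.ne']
        simp only [hS, this, List.map_map]
        exact z2_self _
      rw [h0, h1, add_zero]
    have hsup : IsChain (tel S g L) (Sup ε (k + 1)) := by
      refine (hSc.tel g L).mono ?_
      rintro u ⟨j, hj, w, hw, hl, hx⟩
      have hpt : ∀ x ∈ u, ∃ p ∈ w, ∃ t : ℝ, 0 ≤ t ∧ t ≤ 1 ∧ (j : ℝ) / L ≤ t ∧
          t ≤ (j : ℝ) / L + 1 / L ∧ x = (1 - t) • p + t • e := by
        intro x hxu
        obtain ⟨p, hp, h⟩ := hx x hxu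
        have hj' : (j : ℝ) + 1 ≤ L := by exact_mod_cast hj
        have hj0 : (0 : ℝ) ≤ j := Nat.cast_nonneg j
        rcases h with h | h
        · refine ⟨p, hp, (j : ℝ) / L, by positivity, ?_, le_rfl, ?_, h⟩
          · rw [div_le_one hL0]; linarith
          · have : 0 < 1 / (L : ℝ) := by positivity
            linarith
        · refine ⟨p, hp, ((j + 1 : ℕ) : ℝ) / L, by positivity, ?_, ?_, ?_, h⟩
          · rw [div_le_one hL0]; push_cast; linarith
          · push_cast; gcongr; linarith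
          · push_cast; rw [add_div]
      refine ⟨⟨?_, ?_⟩, by rw [hl, hw.2.1], ?_⟩
      · intro x hxu
        obtain ⟨p, hp, t, ht0, ht1, -, -, rfl⟩ := hpt x hxu
        have hp1 := hw.1.1 p hp
        have hp0 : p ⟨k + 1, hk⟩ = 0 := hw.2.2 p hp _ (by simp)
        have : ∀ i, |((1 - t) • p + t • e) i| = (1 - t) * |p i| + t * e i := by
          intro i
          by_cases hi : i = ⟨k + 1, hk⟩
          · subst hi; simp [he, hp0, abs_of_nonneg ht0]
          · simp [he, hi, abs_mul, abs_of_nonneg (sub_nonneg.2 ht1)]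
        simp only [this, Finset.sum_add_distrib, ← Finset.mul_sum, hp1]
        simp [he]
      · intro x hxu y hyu
        obtain ⟨p, hp, t, ht0, ht1, ht2, ht3, rfl⟩ := hpt x hxu
        obtain ⟨q, hq, s, hs0, hs1, hs2, hs3, rfl⟩ := hpt y hyu
        have hd := hw.1.2 p hp q hq
        have hq1 := norm_le_one_of_sum (hw.1.1 q hq)
        have he1 : ‖e‖ ≤ 1 := by simp [he, Pi.norm_single]
        rw [dist_eq_norm] at hd ⊢
        have : (1 - t) • p + t • e - ((1 - s) • q + s • e)
            = (1 - t) • (p - q) + (s - t) • q + (t - s) • e := by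
          simp only [sub_smul, smul_sub, one_smul]; abel
        rw [this]
        have hts : |t - s| ≤ 1 / L := by rw [abs_le]; constructor <;> linarith
        have h4 : 1 / (L : ℝ) ≤ ε / 4 := by
          rw [div_le_div_iff₀ hL0 (by norm_num)]
          rw [div_lt_iff₀ hε] at hL; linarith
        calc _ ≤ ‖(1 - t) • (p - q)‖ + ‖(s - t) • q‖ + ‖(t - s) • e‖ := norm_add₃_le
          _ = |1 - t| * ‖p - q‖ + |t - s| * ‖q‖ + |t - s| * ‖e‖ := by
            simp only [norm_smul, Real.norm_eq_abs, abs_sub_comm s t]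
          _ ≤ 1 * (ε / 2) + (1 / L) * 1 + (1 / L) * 1 := by
            gcongr
            rw [abs_le]; constructor <;> linarith
          _ ≤ ε := by linarith
      · intro x hxu i hi
        obtain ⟨p, hp, t, -, -, -, -, rfl⟩ := hpt x hxu
        have h1 : p i = 0 := hw.2.2 p hp i (by omega)
        have h2 : e i = 0 := by
          rw [he, Pi.single_eq_of_ne]
          intro e; rw [e] at hi; simp at hi
        simp [h1, h2]
    refine ⟨tel S g L, hsup, ?_, ?_, ?_⟩
    · intro χ
      have : (fun w : List (Fin D → ℝ) => cob χ (w.map Neg.neg))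
          = cob (fun w => χ (w.map Neg.neg)) := by
        funext w; rw [cob_map]
      rw [this, hbd, hbd]
      simp only [hS, List.map_map]
      have : (Neg.neg ∘ Neg.neg : (Fin D → ℝ) → (Fin D → ℝ)) = id := by funext x; simp
      simp only [this, List.map_id]
      linear_combination (H χ + H fun w => χ (w.map Neg.neg)) * z2_two
    · intro _ φ hφ
      rw [hbd]
      simp only [hS, hφ]
      exact z2_self _
    · intro α h0 h
      rw [← hsup.congr (φ := cob α) (fun w hw => h w hw.1), hbd]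
      simp only [hS]
      rw [← hH.add]
      exact hKF α h0 fun w hw => h w (hw.mono (by linarith))

/-- Lebesgue number in the form needed for labelings -/
theorem leb {Y J : Type} [PseudoMetricSpace Y] [Finite J] {K : Set Y} (hK : IsCompact K)
    (G : J → Set Y) (hG : ∀ j, IsClosed (G j)) :
    ∃ ε > 0, ∀ x ∈ K, ∃ p ∈ K, ∀ j, (∃ y ∈ G j, dist x y ≤ ε) → p ∈ G j := by
  let U : K → Set Y := fun p => ⋂ j : {j // (p : Y) ∉ G j}, (G j)ᶜ
  have hU : ∀ p, IsOpen (U p) := fun p => isOpen_iInter_of_finite fun j => (hG j).isOpen_compl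
  have hc : K ⊆ ⋃ p, U p := by
    intro x hx
    exact Set.mem_iUnion.2 ⟨⟨x, hx⟩, Set.mem_iInter.2 fun j => j.2⟩
  obtain ⟨δ, hδ, h⟩ := lebesgue_number_lemma_of_metric hK hU hc
  refine ⟨δ / 2, by positivity, fun x hx => ?_⟩
  obtain ⟨p, hp⟩ := h x hx
  refine ⟨p, p.2, fun j ⟨y, hy, hd⟩ => ?_⟩
  by_contra hn
  have : y ∈ U p := hp (by rw [Metric.mem_ball, dist_comm]; linarith)
  exact Set.mem_iInter.1 this ⟨j, hn⟩ hy

theorem isCompact_l1 (D : ℕ) : IsCompact {x : Fin D → ℝ | ∑ i, |x i| = 1} := by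
  apply Metric.isCompact_of_isClosed_isBounded
  · exact isClosed_eq (by fun_prop) continuous_const
  · rw [isBounded_iff_forall_norm_le]
    exact ⟨1, fun x hx => norm_le_one_of_sum hx⟩

/-- a sign on nonzero vectors -/
theorem exists_pos (V : Type) [AddCommGroup V] [Module ℝ V] :
    ∃ Pos : V → Prop, ∀ x, x ≠ 0 → (Pos (-x) ↔ ¬ Pos x) := by
  refine ⟨fun x => WellOrderingRel x (-x), fun x hx => ?_⟩
  have hne : x ≠ -x := by
    intro h
    apply hx
    have : (2 : ℝ) • x = 0 := by rw [two_smul]; nth_rewrite 2 [h]; simp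
    simpa using this
  simp only [neg_neg]
  constructor
  · intro h1 h2
    exact asymm h1 h2
  · intro h
    rcases trichotomous_of WellOrderingRel x (-x) with h1 | h1 | h1
    · exact absurd h1 h
    · exact absurd h1 hne
    · exact h1

end Crest.Agent.Borsuk
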