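import Mathlib

set_option autoImplicit false

namespace Crest.Agent.Borsuk

abbrev Z2 := ZMod 2

theorem z2_self (a : Z2) : a + a = 0 := by
  revert a; decide

theorem z2_two : (2 : Z2) = 0 := by decide

theorem z2_eq_of_add {a b : Z2} (h : a + b = 0) : a = b := by
  revert a b; decide

variable {P Q R : Type}

/-- coboundary of a cochain on words -/
def cob : (List P → Z2) → List P → Z2
  | _, [] => 0
  | φ, p :: w => φ w + cob (fun u => φ (p :: u)) w

/-- prism operator on cochains -/
def pri (f g : P → Q) : (List Q → Z2) → List P → Z2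
  | _, [] => 0
  | φ, p :: w => φ (f p :: g p :: w.map g) + pri f g (fun u => φ (f p :: u)) w

theorem cob_add (φ ψ : List P → Z2) (w : List P) :
    cob (fun u => φ u + ψ u) w = cob φ w + cob ψ w := by
  induction w generalizing φ ψ with
  | nil => simp [cob]
  | cons p w ih => simp only [cob]; rw [ih]; ring

theorem pri_add (f g : P → Q) (φ ψ : List Q → Z2) (w : List P) :
    pri f g (fun u => φ u + ψ u) w = pri f g φ w + pri f g ψ w := by
  induction w generalizing φ ψ with
  | nil => simp [pri]
  | cons p w ih => simp only [pri]; rw [ih]; ring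

theorem cob_map (f : P → Q) (φ : List Q → Z2) (w : List P) :
    cob (fun u => φ (u.map f)) w = cob φ (w.map f) := by
  induction w generalizing φ with
  | nil => simp [cob]
  | cons p w ih => simp only [cob, List.map_cons]; rw [← ih]

theorem pri_map_left (f g : P → Q) (n : R → P) (φ : List Q → Z2) (w : List R) :
    pri f g φ (w.map n) = pri (fun x => f (n x)) (fun x => g (n x)) φ w := by
  induction w generalizing φ with
  | nil => simp [pri]
  | cons p w ih => simp only [pri, List.map_cons, List.map_map]; rw [ih]; rfl

theorem pri_map_right (f g : P → Q) (m : Q → R) (φ : List R → Z2) (w : List P) :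
    pri (fun x => m (f x)) (fun x => m (g x)) φ w = pri f g (fun u => φ (u.map m)) w := by
  induction w generalizing φ with
  | nil => simp [pri]
  | cons p w ih => simp only [pri, List.map_cons, List.map_map]; rw [ih]; rfl

theorem pri_cob (f g : P → Q) (φ : List Q → Z2) (w : List P) :
    pri f g (cob φ) w + cob (pri f g φ) w = φ (w.map f) + φ (w.map g) := by
  induction w generalizing φ with
  | nil => simp [pri, cob, z2_self]
  | cons p w ih =>
    have h1 : pri f g (fun u => cob φ (f p :: u)) w
        = pri f g φ w + pri f g (cob fun u => φ (f p :: u)) w := by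
      rw [← pri_add]; rfl
    have h2 : cob (fun u => pri f g φ (p :: u)) w
        = cob (fun u => φ (f p :: g p :: u)) (w.map g)
          + cob (pri f g fun u => φ (f p :: u)) w := by
      rw [← cob_map, ← cob_add]; rfl
    have h3 := ih (fun u => φ (f p :: u))
    simp only [pri, cob, List.map_cons] at h1 h2 h3 ⊢
    rw [h1, h2]
    linear_combination h3 + (φ (f p :: List.map g w) + pri f g φ w
      + cob (fun u => φ (f p :: g p :: u)) (w.map g)) * z2_two

theorem pri_zero (f g : P → Q) (φ : List Q → Z2) (w : List P)
    (h : ∀ u : List Q, u.length = w.length + 1 → (∀ x ∈ u, ∃ p ∈ w, x = f p ∨ x = g p) →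
      φ u = 0) : pri f g φ w = 0 := by
  induction w generalizing φ with
  | nil => simp [pri]
  | cons p w ih =>
    simp only [pri]
    rw [h, ih, add_zero]
    · intro u hu hx
      apply h
      · simp [hu]
      · intro x hxu
        rcases List.mem_cons.1 hxu with rfl | hxu
        · exact ⟨p, by simp, Or.inl rfl⟩
        · obtain ⟨q, hq, h'⟩ := hx x hxu
          exact ⟨q, by simp [hq], h'⟩
    · simp
    · intro x hx
      simp only [List.mem_cons, List.mem_map] at hx
      rcases hx with rfl | rfl | ⟨q, hq, rfl⟩
      · exact ⟨p, by simp, Or.inl rfl⟩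
      · exact ⟨p, by simp, Or.inr rfl⟩
      · exact ⟨q, by simp [hq], Or.inr rfl⟩

/-- a chain: an additive functional on cochains supported on words with `S` -/
structure IsChain (C : (List P → Z2) → Z2) (S : List P → Prop) : Prop where
  add : ∀ φ ψ : List P → Z2, C (fun w => φ w + ψ w) = C φ + C ψ
  loc : ∀ φ : List P → Z2, (∀ w, S w → φ w = 0) → C φ = 0

theorem IsChain.congr {C : (List P → Z2) → Z2} {S : List P → Prop} (h : IsChain C S)
    {φ ψ : List P → Z2} (e : ∀ w, S w → φ w = ψ w) : C φ = C ψ := by
  apply z2_eq_of_add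
  rw [← h.add]
  apply h.loc
  intro w hw
  rw [e w hw, z2_self]

theorem IsChain.mono {C : (List P → Z2) → Z2} {S S' : List P → Prop} (h : IsChain C S)
    (e : ∀ w, S w → S' w) : IsChain C S' :=
  ⟨h.add, fun φ hφ => h.loc φ fun w hw => hφ w (e w hw)⟩

/-- telescoped prisms -/
def tel (C : (List P → Z2) → Z2) (f : ℕ → P → Q) (L : ℕ) (φ : List Q → Z2) : Z2 :=
  ∑ j ∈ Finset.range L, C (pri (f j) (f (j + 1)) φ)

theorem IsChain.tel {C : (List P → Z2) → Z2} {S : List P → Prop} (h : IsChain C S)
    (f : ℕ → P → Q) (L : ℕ) :
    IsChain (tel C f L) (fun u => ∃ j < L, ∃ w, S w ∧ u.length = w.length + 1 ∧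
      ∀ x ∈ u, ∃ p ∈ w, x = f j p ∨ x = f (j + 1) p) := by
  constructor
  · intro φ ψ
    simp only [Borsuk.tel]
    rw [← Finset.sum_add_distrib]
    refine Finset.sum_congr rfl fun j _ => ?_
    rw [← h.add]
    congr 1
    funext w
    exact pri_add _ _ _ _ _
  · intro φ hφ
    refine Finset.sum_eq_zero fun j hj => ?_
    apply h.loc
    intro w hw
    apply pri_zero
    intro u hu hx
    exact hφ u ⟨j, Finset.mem_range.1 hj, w, hw, hu, hx⟩

theorem IsChain.tel_cob {C : (List P → Z2) → Z2} {S : List P → Prop} (h : IsChain C S)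
    (f : ℕ → P → Q) (L : ℕ) (φ : List Q → Z2)
    (hb : ∀ j < L, C (cob (pri (f j) (f (j + 1)) φ)) = 0) :
    Borsuk.tel C f L (cob φ) = C (fun w => φ (w.map (f 0))) + C (fun w => φ (w.map (f L))) := by
  induction L with
  | zero => simp [Borsuk.tel, z2_self]
  | succ L ih =>
    have ih' := ih fun j hj => hb j (by omega)
    simp only [Borsuk.tel] at ih' ⊢
    rw [Finset.sum_range_succ, ih']
    have h1 := h.add (pri (f L) (f (L + 1)) (cob φ)) (cob (pri (f L) (f (L + 1)) φ))
    have h2 := h.add (fun w => φ (w.map (f L))) (fun w => φ (w.map (f (L + 1))))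
    have h3 : (fun w => pri (f L) (f (L + 1)) (cob φ) w + cob (pri (f L) (f (L + 1)) φ) w)
        = fun w => φ (w.map (f L)) + φ (w.map (f (L + 1))) := by
      funext w; exact pri_cob _ _ _ _
    rw [h3, h2, hb L (by omega)] at h1
    linear_combination (-1 : Z2) * h1 + (C fun w => φ (w.map (f L))) * z2_two

/-! ### cochains from set functions -/

section Sets
variable {L : Type} [DecidableEq L]

def ofSet (F : Finset L → Z2) (w : List L) : Z2 := if w.Nodup then F w.toFinset else 0

def dS (F : Finset L → Z2) (T : Finset L) : Z2 := ∑ x ∈ T, F (T.erase x)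

theorem cob_ofSet (F : Finset L → Z2) (w : List L) : cob (ofSet F) w = ofSet (dS F) w := by
  induction w generalizing F with
  | nil => simp [cob, ofSet, dS]
  | cons p w ih =>
    have h1 : (fun u => ofSet F (p :: u))
        = ofSet (fun T => if p ∈ T then 0 else F (insert p T)) := by
      funext u
      simp only [ofSet, List.nodup_cons, List.toFinset_cons, List.mem_toFinset]
      by_cases h : p ∈ u <;> by_cases h' : u.Nodup <;> simp [h, h']
    simp only [cob]
    rw [h1, ih]
    simp only [ofSet, List.nodup_cons, List.toFinset_cons]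
    by_cases h' : w.Nodup
    · simp only [h', if_true, and_true]
      by_cases h : p ∈ w
      · simp only [h, not_true, if_false, dS]
        rw [Finset.sum_eq_single p]
        · rw [if_neg (by simp), Finset.insert_erase (by simpa using h), z2_self]
        · intro x _ hx
          rw [if_pos]
          simp [h, Ne.symm hx]
        · intro h''; exact absurd (by simpa using h) h''
      · simp only [h, not_false_eq_true, if_true, dS]
        have hp : p ∉ w.toFinset := by simpa using h
        rw [Finset.sum_insert hp, Finset.erase_insert hp]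
        congr 1
        refine Finset.sum_congr rfl fun x hx => ?_
        have hxp : p ≠ x := fun e => hp (e ▸ hx)
        rw [if_neg (by simp [h]), Finset.erase_insert_of_ne hxp]
    · simp [h']

theorem ofSet_map (F : Finset L → Z2) (σ : L → L) (hσ : Function.Injective σ) (w : List L) :
    ofSet F (w.map σ) = ofSet (fun T => F (T.image σ)) w := by
  simp only [ofSet, List.nodup_map_iff hσ]
  congr 2
  ext x; simp

theorem ofSet_add (F G : Finset L → Z2) (w : List L) :
    ofSet (fun T => F T + G T) w = ofSet F w + ofSet G w := by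
  simp only [ofSet]; split_ifs <;> simp

theorem ofSet_congr {F G : Finset L → Z2} {w : List L}
    (h : ∀ T : Finset L, T.card = w.length → (∀ x, x ∈ T ↔ x ∈ w) → F T = G T) :
    ofSet F w = ofSet G w := by
  simp only [ofSet]
  split_ifs with hw
  · exact h _ (List.toFinset_card_of_nodup hw) (by simp)
  · rfl

theorem ofSet_zero {F : Finset L → Z2} {w : List L}
    (h : ∀ T : Finset L, T.card = w.length → (∀ x, x ∈ T ↔ x ∈ w) → F T = 0) :
    ofSet F w = 0 := by
  simp only [ofSet]
  split_ifs with hw
  · exact h _ (List.toFinset_card_of_nodup hw) (by simp)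
  · rfl

end Sets

end Crest.Agent.Borsuk
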